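import Mathlib

/-!
P259, module E: geometric realisation of simplicial complexes with the weak topology.
-/

universe u v

namespace P259.Complex

open Function Topology

/-- A simplicial complex: a family of finite vertex sets closed under subsets. -/
structure Cx (V : Type u) where
  simp : Set (Finset V)
  down : ∀ {s t : Finset V}, s ∈ simp → t ⊆ s → t ∈ simp

namespace Cx

variable {V : Type u}

/-- The order complex of a preorder. -/
def chains (P : Type u) [Preorder P] : Cx P where
  simp := {s | IsChain (· ≤ ·) (s : Set P)}
  down := fun hs hts => hs.mono (Finset.coe_subset.2 hts)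

theorem mem_chains {P : Type u} [Preorder P] {s : Finset P} :
    s ∈ (chains P).simp ↔ IsChain (· ≤ ·) (s : Set P) := Iff.rfl

/-- The full simplex on a vertex type. -/
def full (V : Type u) : Cx V where
  simp := Set.univ
  down := fun _ _ => Set.mem_univ _

theorem mem_full (s : Finset V) : s ∈ (full V).simp := Set.mem_univ _

/-- The subcomplex of the simplices with vertices in a given set. -/
def induced (K : Cx V) (A : Set V) : Cx V where
  simp := {s | s ∈ K.simp ∧ (s : Set V) ⊆ A}
  down := fun hs hts => ⟨K.down hs.1 hts, (Finset.coe_subset.2 hts).trans hs.2⟩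

/-- The poset of nonempty simplices. -/
abbrev Simplex (K : Cx V) : Type u := {s : Finset V // s ∈ K.simp ∧ s.Nonempty}

noncomputable instance (K : Cx V) [Fintype V] : Fintype K.Simplex := by
  classical
  exact Subtype.fintype _

/-- A vertex map is simplicial if it sends simplices to simplices. -/
def IsSimplicial {W : Type v} (K : Cx V) (L : Cx W) (φ : V → W) : Prop :=
  ∀ s ∈ K.simp, ∀ [DecidableEq W], s.image φ ∈ L.simp

end Cx

/-- A point of the realisation. -/
@[ext]
structure Real {V : Type u} (K : Cx V) where
  w : V →₀ ℝ
  nonneg : ∀ v, 0 ≤ w v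
  total : w.sum (fun _ x => x) = 1
  mem : w.support ∈ K.simp

namespace Real

open scoped Classical

variable {V : Type u} {K : Cx V}

theorem sum_eq_one (x : Real K) {s : Finset V} (hs : x.w.support ⊆ s) :
    ∑ v ∈ s, x.w v = 1 := by
  rw [← Finsupp.sum_of_support_subset x.w hs (fun _ y => y) (fun _ _ => rfl)]
  exact x.total

theorem support_nonempty (x : Real K) : x.w.support.Nonempty := by
  by_contra h
  have h' := x.sum_eq_one (s := ∅) (by simpa [Finset.not_nonempty_iff_eq_empty] using h)
  simp at h'

theorem le_one (x : Real K) (v : V) : x.w v ≤ 1 := by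
  by_cases hv : v ∈ x.w.support
  · calc x.w v ≤ ∑ u ∈ x.w.support, x.w u :=
          Finset.single_le_sum (fun u _ => x.nonneg u) hv
      _ = 1 := x.sum_eq_one subset_rfl
  · rw [Finsupp.notMem_support_iff.1 hv]
    norm_num

theorem coord_injective : Injective (fun (x : Real K) (v : V) => x.w v) :=
  fun _ _ h => Real.ext (Finsupp.ext fun v => congrFun h v)

/-- The finitely supported function of a point of a standard simplex. -/
noncomputable def simplexWeight (s : Finset V) (f : stdSimplex ℝ s) : V →₀ ℝ :=
  Finsupp.onFinset s (fun v => if h : v ∈ s then f.1 ⟨v, h⟩ else 0)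
    (fun v hv => by
      by_contra h
      simp [h] at hv)

theorem simplexWeight_apply (s : Finset V) (f : stdSimplex ℝ s) (v : V) :
    simplexWeight s f v = if h : v ∈ s then f.1 ⟨v, h⟩ else 0 := rfl

theorem simplexWeight_support (s : Finset V) (f : stdSimplex ℝ s) :
    (simplexWeight s f).support ⊆ s := by
  intro v hv
  by_contra h
  exact Finsupp.mem_support_iff.1 hv (by simp [simplexWeight_apply, h])

/-- The characteristic map of a simplex. -/
noncomputable def ofSimplex (s : {s // s ∈ K.simp}) (f : stdSimplex ℝ s.1) : Real K where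
  w := simplexWeight s.1 f
  nonneg := fun v => by
    rw [simplexWeight_apply]
    split
    · exact f.2.1 _
    · exact le_rfl
  total := by
    rw [Finsupp.sum_of_support_subset _ (simplexWeight_support s.1 f) _ (fun _ _ => rfl),
      ← Finset.sum_coe_sort]
    calc ∑ i : s.1, simplexWeight s.1 f i = ∑ i : s.1, f.1 i :=
          Finset.sum_congr rfl fun i _ => by simp [simplexWeight_apply, i.2]
      _ = 1 := f.2.2
  mem := K.down s.2 (simplexWeight_support s.1 f)

noncomputable instance : TopologicalSpace (Real K) :=
  ⨆ s : {s // s ∈ K.simp}, TopologicalSpace.coinduced (ofSimplex s) inferInstance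

theorem continuous_iff {Y : Type v} [TopologicalSpace Y] {f : Real K → Y} :
    Continuous f ↔ ∀ s : {s // s ∈ K.simp}, Continuous (f ∘ ofSimplex s) := by
  constructor
  · intro h s
    exact (continuous_coinduced_dom.1 (continuous_iSup_dom.1 h s))
  · intro h
    exact continuous_iSup_dom.2 fun s => continuous_coinduced_dom.2 (h s)

theorem isClosed_iff {S : Set (Real K)} :
    IsClosed S ↔ ∀ s : {s // s ∈ K.simp}, IsClosed (ofSimplex s ⁻¹' S) := by
  simp only [isClosed_iSup_iff, isClosed_coinduced]

theorem continuous_ofSimplex (s : {s // s ∈ K.simp}) : Continuous (ofSimplex (K := K) s) :=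
  continuous_iSup_rng (i := s) continuous_coinduced_rng

theorem continuous_coord (v : V) : Continuous (fun x : Real K => x.w v) := by
  rw [continuous_iff]
  intro s
  show Continuous fun f => simplexWeight s.1 f v
  simp only [simplexWeight_apply]
  by_cases h : v ∈ s.1
  · simp only [h, dif_pos]
    exact (continuous_apply _).comp continuous_subtype_val
  · simp only [h, dif_neg, not_false_iff]
    exact continuous_const

instance : T2Space (Real K) :=
  T2Space.of_injective_continuous coord_injective (continuous_pi continuous_coord)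

theorem exists_ofSimplex (x : Real K) {s : Finset V} (hs : s ∈ K.simp)
    (hx : x.w.support ⊆ s) : ∃ f, ofSimplex (K := K) ⟨s, hs⟩ f = x := by
  refine ⟨⟨fun i => x.w i, fun i => x.nonneg _, ?_⟩, ?_⟩
  · rw [Finset.sum_coe_sort s (fun v => x.w v)]
    exact x.sum_eq_one hx
  · refine Real.ext (Finsupp.ext fun v => ?_)
    show simplexWeight s _ v = x.w v
    rw [simplexWeight_apply]
    split
    · rfl
    · next h => exact (Finsupp.notMem_support_iff.1 fun h' => h (hx h')).symm

/-- The points with all vertices in a finite set. -/
def within (A : Finset V) : Set (Real K) := {x | x.w.support ⊆ A}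

theorem isCompact_within (A : Finset V) : IsCompact (within (K := K) A) := by
  have h : within (K := K) A
      = ⋃ s ∈ {s : {s // s ∈ K.simp} | s.1 ⊆ A}, Set.range (ofSimplex s) := by
    ext x
    simp only [within, Set.mem_ofPred_eq, Set.mem_iUnion, Set.mem_range, exists_prop]
    constructor
    · intro hx
      exact ⟨⟨_, x.mem⟩, hx, exists_ofSimplex x x.mem subset_rfl⟩
    · rintro ⟨s, hs, f, rfl⟩
      exact (simplexWeight_support s.1 f).trans hs
  rw [h]
  refine Set.Finite.isCompact_biUnion ?_ fun s _ => isCompact_range (continuous_ofSimplex s)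
  refine Set.Finite.of_finite_image (f := Subtype.val) ?_ (fun _ _ _ _ => Subtype.ext)
  refine A.powerset.finite_toSet.subset ?_
  rintro _ ⟨s, hs, rfl⟩
  exact Finset.mem_powerset.2 hs

/-- Into a finite subcomplex, continuity is checked on coordinates. -/
theorem continuous_of_coord {Z : Type v} [TopologicalSpace Z] {f : Z → Real K} (A : Finset V)
    (hA : ∀ z, (f z).w.support ⊆ A) (hc : ∀ v ∈ A, Continuous fun z => (f z).w v) :
    Continuous f := by
  have : CompactSpace (within (K := K) A) :=
    isCompact_iff_compactSpace.1 (isCompact_within A)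
  let c : within (K := K) A → A → ℝ := fun x v => x.1.w v
  have hci : Continuous c := continuous_pi fun v =>
    (continuous_coord _).comp continuous_subtype_val
  have hinj : Injective c := by
    intro x y h
    refine Subtype.ext (Real.ext (Finsupp.ext fun v => ?_))
    by_cases hv : v ∈ A
    · exact congrFun h ⟨v, hv⟩
    · rw [Finsupp.notMem_support_iff.1 fun h' => hv (x.2 h'),
        Finsupp.notMem_support_iff.1 fun h' => hv (y.2 h')]
  have hf : Continuous fun z => (⟨f z, hA z⟩ : within (K := K) A) :=
    (hci.isClosedEmbedding hinj).isInducing.continuous_iff.2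
      (continuous_pi fun v => hc v.1 v.2)
  exact continuous_subtype_val.comp hf

/-- A compact set meets only finitely many vertices. -/
theorem exists_within_of_isCompact {S : Set (Real K)} (hS : IsCompact S) :
    ∃ A : Finset V, S ⊆ within A := by
  let T : Set (Finset V) := (fun x : Real K => x.w.support) '' S
  have hsel : ∀ t : T, ∃ x ∈ S, x.w.support = t.1 := fun t => t.2
  choose p hpS hp using hsel
  have hclosed : ∀ E : Set T, IsClosed (p '' E) := by
    intro E
    rw [isClosed_iff]
    intro s
    refine Set.Finite.isClosed ?_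
    have hfin : {t : T | t.1 ⊆ s.1}.Finite :=
      Set.Finite.of_finite_image (s.1.powerset.finite_toSet.subset (by
        rintro _ ⟨t, ht, rfl⟩
        exact Finset.mem_powerset.2 ht)) (Subtype.val_injective.injOn)
    have hfin' : (ofSimplex s ⁻¹' (p '' {t : T | t.1 ⊆ s.1})).Finite := by
      refine (hfin.image p).preimage ?_
      intro a _ b _ hab
      refine Subtype.ext (funext fun i => ?_)
      have := congrArg (fun x : Real K => x.w i.1) hab
      simpa [ofSimplex, simplexWeight_apply, i.2] using this
    refine hfin'.subset ?_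
    rintro f ⟨t, -, ht⟩
    refine ⟨t, ?_, ht⟩
    show t.1 ⊆ s.1
    rw [← hp t, ht]
    exact simplexWeight_support s.1 f
  have hTfin : Finite T := by
    have hcov : S ⊆ ⋃ t : T, (p '' {u | u ≠ t})ᶜ := by
      intro x hx
      refine Set.mem_iUnion.2 ⟨⟨x.w.support, x, hx, rfl⟩, ?_⟩
      rintro ⟨t, ht, rfl⟩
      exact ht (Subtype.ext (hp t).symm)
    obtain ⟨F, hF⟩ := hS.elim_finite_subcover (fun t : T => (p '' {u | u ≠ t})ᶜ)
      (fun t => (hclosed _).isOpen_compl) hcov
    refine Set.finite_univ_iff.1 (F.finite_toSet.subset fun t _ => ?_)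
    have := hF (hpS t)
    simp only [Set.mem_iUnion] at this
    obtain ⟨u, hu, htu⟩ := this
    have : t = u := by
      by_contra hne
      exact htu ⟨t, hne, rfl⟩
    exact this ▸ hu
  have := Fintype.ofFinite T
  refine ⟨(Finset.univ : Finset T).biUnion fun t => t.1, fun x hx v hv => ?_⟩
  exact Finset.mem_biUnion.2 ⟨⟨_, x, hx, rfl⟩, Finset.mem_univ _, hv⟩

instance : UCompactlyGeneratedSpace.{u} (Real K) :=
  uCompactlyGeneratedSpace_of_continuous_maps fun f hf => by
    rw [continuous_iff]
    intro s
    exact hf (CompHaus.of (stdSimplex ℝ s.1)) ⟨ofSimplex s, continuous_ofSimplex s⟩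

/-- A vertex. -/
noncomputable def vertex (v : V) (hv : {v} ∈ K.simp) : Real K where
  w := Finsupp.single v 1
  nonneg := fun u => by
    rw [Finsupp.single_apply]
    split <;> norm_num
  total := Finsupp.sum_single_index rfl
  mem := by
    rw [Finsupp.support_single _ one_ne_zero]
    exact hv

theorem eq_vertex_of_support {x : Real K} {v : V} (h : x.w.support ⊆ {v})
    (hv : {v} ∈ K.simp) : x = vertex v hv := by
  refine Real.ext (Finsupp.ext fun u => ?_)
  show x.w u = Finsupp.single v (1 : ℝ) u
  rw [Finsupp.single_apply]
  split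
  · next huv =>
      subst huv
      simpa using x.sum_eq_one h
  · next huv =>
      exact Finsupp.notMem_support_iff.1 fun h' => huv (Finset.mem_singleton.1 (h h')).symm

variable {W : Type v} {L : Cx W}

/-- The realisation of a simplicial map. -/
noncomputable def map (φ : V → W) (hφ : K.IsSimplicial L φ) (x : Real K) : Real L where
  w := x.w.mapDomain φ
  nonneg := fun u => by
    simp only [Finsupp.mapDomain, Finsupp.sum, Finsupp.finsetSum_apply, Finsupp.single_apply]
    exact Finset.sum_nonneg fun v _ => by
      split
      · exact x.nonneg v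
      · exact le_rfl
  total := by
    rw [Finsupp.sum_mapDomain_index (fun _ => rfl) (fun _ _ _ => rfl)]
    exact x.total
  mem := L.down (hφ _ x.mem) Finsupp.mapDomain_support

theorem map_w_apply (φ : V → W) (hφ : K.IsSimplicial L φ) (x : Real K) {s : Finset V}
    (hs : x.w.support ⊆ s) (u : W) :
    (map φ hφ x).w u = ∑ v ∈ s, if φ v = u then x.w v else 0 := by
  show Finsupp.mapDomain φ x.w u = _
  rw [Finsupp.mapDomain, Finsupp.sum_of_support_subset _ hs _ (fun _ _ => Finsupp.single_zero _),
    Finsupp.finsetSum_apply]
  exact Finset.sum_congr rfl fun v _ => Finsupp.single_apply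

theorem map_support (φ : V → W) (hφ : K.IsSimplicial L φ) (x : Real K) :
    (map φ hφ x).w.support ⊆ x.w.support.image φ :=
  Finsupp.mapDomain_support

theorem continuous_map (φ : V → W) (hφ : K.IsSimplicial L φ) : Continuous (map φ hφ) := by
  rw [continuous_iff]
  intro s
  refine continuous_of_coord (s.1.image φ) (fun f => ?_) (fun u _ => ?_)
  · exact (map_support φ hφ _).trans (Finset.image_subset_image (simplexWeight_support s.1 f))
  · have h : (fun f => ((map φ hφ ∘ ofSimplex s) f).w u)
        = fun f => ∑ v ∈ s.1, if φ v = u then (ofSimplex (K := K) s f).w v else 0 :=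
      funext fun f => map_w_apply φ hφ (ofSimplex s f) (simplexWeight_support s.1 f) u
    rw [h]
    refine continuous_finsetSum _ fun v _ => ?_
    split
    · exact (continuous_coord v).comp (continuous_ofSimplex s)
    · exact continuous_const

/-- The realisation of a simplicial map as a continuous map. -/
noncomputable def mapC (φ : V → W) (hφ : K.IsSimplicial L φ) : C(Real K, Real L) :=
  ⟨map φ hφ, continuous_map φ hφ⟩

theorem map_id (x : Real K) (h : K.IsSimplicial K id) : map id h x = x :=
  Real.ext Finsupp.mapDomain_id

theorem map_map {U : Type*} {M : Cx U} (φ : V → W) (ψ : W → U) (hφ : K.IsSimplicial L φ)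
    (hψ : L.IsSimplicial M ψ) (h : K.IsSimplicial M (ψ ∘ φ)) (x : Real K) :
    map ψ hψ (map φ hφ x) = map (ψ ∘ φ) h x :=
  Real.ext Finsupp.mapDomain_comp.symm

theorem map_vertex (φ : V → W) (hφ : K.IsSimplicial L φ) (v : V) (hv : {v} ∈ K.simp)
    (hv' : {φ v} ∈ L.simp) : map φ hφ (vertex v hv) = vertex (φ v) hv' :=
  Real.ext Finsupp.mapDomain_single

end Real

namespace Cx

variable {V : Type u} {W : Type v}

theorem isSimplicial_of_monotone [Preorder V] [Preorder W] {φ : V → W} (hφ : Monotone φ) :
    (chains V).IsSimplicial (chains W) φ := by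
  intro s hs _
  rw [mem_chains, Finset.coe_image]
  rintro _ ⟨a, ha, rfl⟩ _ ⟨b, hb, rfl⟩ hab
  rcases hs ha hb (fun h => hab (congrArg φ h)) with h | h
  · exact Or.inl (hφ h)
  · exact Or.inr (hφ h)

theorem isSimplicial_full {φ : V → W} (K : Cx V) : K.IsSimplicial (full W) φ :=
  fun _ _ _ => Set.mem_univ _

end Cx

end P259.Complex
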