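import Mathlib
import Vale.Agent.P259.Complex.Basic

/-!
P259, module E: straight line homotopies and comparable monotone maps.
-/

universe u v

namespace P259.Complex

open Topology unitInterval

namespace Real

open scoped Classical

variable {V : Type u} {K : Cx V}

/-- The point dividing the segment between two points of a common simplex. -/
noncomputable def line (x y : Real K) (h : x.w.support ∪ y.w.support ∈ K.simp) (t : I) :
    Real K where
  w := (1 - (t : ℝ)) • x.w + (t : ℝ) • y.w
  nonneg := fun v => by
    simp only [Finsupp.add_apply, Finsupp.smul_apply, smul_eq_mul]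
    exact add_nonneg (mul_nonneg (sub_nonneg.2 t.2.2) (x.nonneg v))
      (mul_nonneg t.2.1 (y.nonneg v))
  total := by
    have hsub : ((1 - (t : ℝ)) • x.w + (t : ℝ) • y.w).support ⊆ x.w.support ∪ y.w.support :=
      Finsupp.support_add.trans
        (Finset.union_subset_union Finsupp.support_smul Finsupp.support_smul)
    rw [Finsupp.sum_of_support_subset _ hsub _ (fun _ _ => rfl)]
    simp only [Finsupp.add_apply, Finsupp.smul_apply, smul_eq_mul, Finset.sum_add_distrib,
      ← Finset.mul_sum, x.sum_eq_one Finset.subset_union_left,
      y.sum_eq_one Finset.subset_union_right]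
    ring
  mem := K.down h (Finsupp.support_add.trans
    (Finset.union_subset_union Finsupp.support_smul Finsupp.support_smul))

theorem line_w_apply (x y : Real K) (h : x.w.support ∪ y.w.support ∈ K.simp) (t : I) (v : V) :
    (line x y h t).w v = (1 - (t : ℝ)) * x.w v + (t : ℝ) * y.w v := by
  simp [line]

theorem line_support (x y : Real K) (h : x.w.support ∪ y.w.support ∈ K.simp) (t : I) :
    (line x y h t).w.support ⊆ x.w.support ∪ y.w.support :=
  Finsupp.support_add.trans
    (Finset.union_subset_union Finsupp.support_smul Finsupp.support_smul)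

theorem line_zero (x y : Real K) (h : x.w.support ∪ y.w.support ∈ K.simp) :
    line x y h 0 = x :=
  Real.ext (Finsupp.ext fun v => by rw [line_w_apply]; simp)

theorem line_one (x y : Real K) (h : x.w.support ∪ y.w.support ∈ K.simp) :
    line x y h 1 = y :=
  Real.ext (Finsupp.ext fun v => by rw [line_w_apply]; simp)

theorem line_self (x y : Real K) (h : x.w.support ∪ y.w.support ∈ K.simp) (t : I) (hxy : x = y) :
    line x y h t = x :=
  Real.ext (Finsupp.ext fun v => by rw [line_w_apply, ← hxy]; ring)

variable {Z : Type v} [TopologicalSpace Z] [CompactSpace Z]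

/-- The straight line homotopy. -/
noncomputable def lineHomotopy (f g : C(Z, Real K))
    (h : ∀ z, (f z).w.support ∪ (g z).w.support ∈ K.simp) : ContinuousMap.Homotopy f g where
  toFun p := line (f p.2) (g p.2) (h p.2) p.1
  continuous_toFun := by
    obtain ⟨A, hA⟩ := exists_within_of_isCompact (isCompact_range f.continuous)
    obtain ⟨B, hB⟩ := exists_within_of_isCompact (isCompact_range g.continuous)
    refine continuous_of_coord (A ∪ B) (fun p => (line_support _ _ _ _).trans
      (Finset.union_subset_union (hA ⟨p.2, rfl⟩) (hB ⟨p.2, rfl⟩))) (fun v _ => ?_)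
    simp only [line_w_apply]
    exact ((continuous_const.sub (continuous_subtype_val.comp continuous_fst)).mul
      ((continuous_coord v).comp (f.continuous.comp continuous_snd))).add
      ((continuous_subtype_val.comp continuous_fst).mul
      ((continuous_coord v).comp (g.continuous.comp continuous_snd)))
  map_zero_left z := line_zero _ _ _
  map_one_left z := line_one _ _ _

theorem lineHomotopy_apply (f g : C(Z, Real K))
    (h : ∀ z, (f z).w.support ∪ (g z).w.support ∈ K.simp) (t : I) (z : Z) :
    lineHomotopy f g h (t, z) = line (f z) (g z) (h z) t := rfl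

theorem lineHomotopy_support (f g : C(Z, Real K))
    (h : ∀ z, (f z).w.support ∪ (g z).w.support ∈ K.simp) (t : I) (z : Z) :
    (lineHomotopy f g h (t, z)).w.support ⊆ (f z).w.support ∪ (g z).w.support :=
  line_support _ _ (h z) _

theorem lineHomotopy_self (f g : C(Z, Real K))
    (h : ∀ z, (f z).w.support ∪ (g z).w.support ∈ K.simp) (t : I) (z : Z) (hz : f z = g z) :
    lineHomotopy f g h (t, z) = f z :=
  line_self _ _ (h z) _ hz

instance [Finite V] : CompactSpace (Real K) := by
  have := Fintype.ofFinite V
  have h : within (K := K) Finset.univ = Set.univ :=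
    Set.eq_univ_of_forall fun x => Finset.subset_univ _
  exact ⟨h ▸ isCompact_within Finset.univ⟩

theorem map_congr {W : Type v} {L : Cx W} {φ ψ : V → W} (hφ : K.IsSimplicial L φ)
    (hψ : K.IsSimplicial L ψ) (x : Real K) (h : ∀ v ∈ x.w.support, φ v = ψ v) :
    map φ hφ x = map ψ hψ x :=
  Real.ext (Finsupp.mapDomain_congr h)

end Real

namespace Cx

variable {P : Type u} {Q : Type v} [PartialOrder P] [PartialOrder Q]

/-- One step between comparable monotone maps: they change at one point only, so the images of a
chain form a chain together. -/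
theorem isChain_union_of_agree {f g : P → Q} (hf : Monotone f) (hg : Monotone g) {p : P}
    (hp : f p ≤ g p) (hne : ∀ q, q ≠ p → f q = g q) [DecidableEq Q] {s : Finset P}
    (hs : s ∈ (chains P).simp) : s.image f ∪ s.image g ∈ (chains Q).simp := by
  have key : ∀ a ∈ s, ∀ b ∈ s, a ≤ b → f a ≤ f b ∧ g a ≤ g b ∧
      (f a ≤ g b ∨ g b ≤ f a) ∧ (g a ≤ f b ∨ f b ≤ g a) := by
    intro a _ b _ hab
    refine ⟨hf hab, hg hab, ?_, ?_⟩
    · refine Or.inl ?_
      by_cases hb : b = p
      · exact (hf hab).trans (hb ▸ hp)
      · exact (hf hab).trans (hne b hb).le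
    · by_cases ha : a = p
      · by_cases hb : b = p
        · subst ha hb
          exact Or.inr hp
        · exact Or.inl ((hg hab).trans (hne b hb).ge)
      · exact Or.inl ((hne a ha).ge.trans (hf hab))
  have cmp : ∀ a ∈ s, ∀ b ∈ s, (f a ≤ f b ∨ f b ≤ f a) ∧ (g a ≤ g b ∨ g b ≤ g a) ∧
      (f a ≤ g b ∨ g b ≤ f a) := by
    intro a ha b hb
    have hab : a ≤ b ∨ b ≤ a := by
      by_cases h : a = b
      · exact Or.inl h.le
      · exact hs ha hb h
    rcases hab with hab | hab
    · exact ⟨Or.inl (key a ha b hb hab).1, Or.inl (key a ha b hb hab).2.1,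
        (key a ha b hb hab).2.2.1⟩
    · exact ⟨Or.inr (key b hb a ha hab).1, Or.inr (key b hb a ha hab).2.1,
        (key b hb a ha hab).2.2.2.symm⟩
  rw [mem_chains]
  intro x hx y hy _
  simp only [Finset.coe_union, Finset.coe_image, Set.mem_union, Set.mem_image] at hx hy
  rcases hx with ⟨a, ha, rfl⟩ | ⟨a, ha, rfl⟩ <;> rcases hy with ⟨b, hb, rfl⟩ | ⟨b, hb, rfl⟩
  · exact (cmp a ha b hb).1
  · exact (cmp a ha b hb).2.2
  · exact (cmp b hb a ha).2.2.symm
  · exact (cmp a ha b hb).2.1

/-- Induction along a comparable pair of monotone maps by steps changing one point. -/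
theorem le_induction [Fintype P] {motive : (P →o Q) → (P →o Q) → Prop}
    (refl : ∀ f, motive f f)
    (step : ∀ f f' g : P →o Q, ∀ p, f p ≤ f' p → (∀ q, q ≠ p → f q = f' q) → f' p = g p →
      f' ≤ g → motive f' g → motive f g)
    (f g : P →o Q) (h : f ≤ g) : motive f g := by
  classical
  suffices H : ∀ n, ∀ f : P →o Q, f ≤ g → (Finset.univ.filter fun q => f q ≠ g q).card = n →
      motive f g from H _ f h rfl
  intro n
  induction n using Nat.strong_induction_on with
  | _ n ih =>
    intro f h hn
    by_cases hD : (Finset.univ.filter fun q => f q ≠ g q).Nonempty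
    swap
    · have : f = g := OrderHom.ext _ _ (funext fun q => by
        by_contra hq
        exact hD ⟨q, by simp [hq]⟩)
      exact this ▸ refl f
    obtain ⟨p, hp⟩ := (Finset.univ.filter fun q => f q ≠ g q).exists_maximal hD
    have hpD : f p ≠ g p := by simpa using hp.1
    have htop : ∀ q, p < q → f q = g q := fun q hq => by
      by_contra hne
      exact not_le_of_gt hq (hp.2 (by simp [hne]) hq.le)
    have hmono : Monotone (Function.update (f : P → Q) p (g p)) := by
      intro a b hab
      simp only [Function.update_apply]
      split_ifs with ha hb hb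
      · exact le_rfl
      · subst ha
        exact (g.monotone hab).trans (htop b (lt_of_le_of_ne hab (Ne.symm hb))).ge
      · subst hb
        exact (f.monotone hab).trans (h b)
      · exact f.monotone hab
    let f' : P →o Q := ⟨Function.update (f : P → Q) p (g p), hmono⟩
    have hf'p : f' p = g p := by simp [f']
    have hf'q : ∀ q, q ≠ p → f q = f' q := fun q hq => by simp [f', hq]
    have hle : f' ≤ g := fun q => by
      by_cases hq : q = p
      · subst hq
        exact hf'p.le
      · exact (hf'q q hq).ge.trans (h q)
    have hlt : (Finset.univ.filter fun q => f' q ≠ g q).card < n := by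
      rw [← hn]
      refine Finset.card_lt_card ((Finset.ssubset_iff_of_subset ?_).2 ⟨p, by simp [hpD], ?_⟩)
      · intro q hq
        simp only [Finset.mem_filter, Finset.mem_univ, true_and] at hq ⊢
        by_cases hqp : q = p
        · exact hqp ▸ hpD
        · rw [hf'q q hqp]
          exact hq
      · simp [hf'p]
    exact step f f' g p (hf'p ▸ h p) hf'q hf'p hle (ih _ hlt f' hle rfl)

end Cx

namespace Real

open scoped Classical

variable {P : Type u} {Q : Type v} [PartialOrder P] [PartialOrder Q]

/-- The realisation of a monotone map. -/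
noncomputable def mapO (f : P →o Q) : C(Real (Cx.chains P), Real (Cx.chains Q)) :=
  mapC f (Cx.isSimplicial_of_monotone f.monotone)

theorem mapO_support (f : P →o Q) (x : Real (Cx.chains P)) :
    (mapO f x).w.support ⊆ x.w.support.image f :=
  map_support f (Cx.isSimplicial_of_monotone f.monotone) x

theorem mapO_congr (f g : P →o Q) (x : Real (Cx.chains P)) (h : ∀ v ∈ x.w.support, f v = g v) :
    mapO f x = mapO g x :=
  map_congr (Cx.isSimplicial_of_monotone f.monotone) (Cx.isSimplicial_of_monotone g.monotone) x h

theorem mapO_comp {R : Type*} [PartialOrder R] (f : P →o Q) (g : Q →o R)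
    (x : Real (Cx.chains P)) : mapO g (mapO f x) = mapO (g.comp f) x :=
  Real.ext Finsupp.mapDomain_comp.symm

/-- Comparable monotone maps have homotopic realisations, by a homotopy which moves each point
inside the span of its two images and is constant where the maps agree. -/
theorem exists_homotopy_of_le [Fintype P] (f g : P →o Q) (h : f ≤ g) :
    ∃ H : ContinuousMap.Homotopy (mapO f) (mapO g), ∀ t x,
      (H (t, x)).w.support ⊆ x.w.support.image f ∪ x.w.support.image g ∧
      ((∀ v ∈ x.w.support, f v = g v) → H (t, x) = mapO f x) := by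
  refine Cx.le_induction (motive := fun f g => ∃ H : ContinuousMap.Homotopy (mapO f) (mapO g),
      ∀ t x, (H (t, x)).w.support ⊆ x.w.support.image f ∪ x.w.support.image g ∧
        ((∀ v ∈ x.w.support, f v = g v) → H (t, x) = mapO f x)) ?_ ?_ f g h
  · intro f
    refine ⟨ContinuousMap.Homotopy.refl _, fun t x => ⟨?_, fun _ => rfl⟩⟩
    exact (mapO_support f x).trans Finset.subset_union_left
  · intro f f' g p hp hne hf'g hle hind
    obtain ⟨H', hH'⟩ := hind
    have hs : ∀ x, ((mapO f) x).w.support ∪ ((mapO f') x).w.support ∈ (Cx.chains Q).simp :=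
      fun x => (Cx.chains Q).down (Cx.isChain_union_of_agree f.monotone f'.monotone hp hne x.mem)
        (Finset.union_subset_union (mapO_support f x) (mapO_support f' x))
    refine ⟨(lineHomotopy _ _ hs).trans H', fun t x => ?_⟩
    have himg : x.w.support.image f' ⊆ x.w.support.image f ∪ x.w.support.image g := by
      intro y hy
      obtain ⟨q, hq, rfl⟩ := Finset.mem_image.1 hy
      by_cases hqp : q = p
      · exact Finset.mem_union_right _ (Finset.mem_image.2 ⟨q, hq, by rw [hqp, hf'g]⟩)
      · exact Finset.mem_union_left _ (Finset.mem_image.2 ⟨q, hq, hne q hqp⟩)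
    rw [ContinuousMap.Homotopy.trans_apply]
    split_ifs with ht
    · refine ⟨((lineHomotopy_support _ _ hs _ _).trans (Finset.union_subset_union
        (mapO_support f x) (mapO_support f' x))).trans
        (Finset.union_subset Finset.subset_union_left himg), fun hx => ?_⟩
      refine lineHomotopy_self _ _ hs _ _ (mapO_congr _ _ _ fun v hv => ?_)
      by_cases hvp : v = p
      · rw [hvp, hf'g]
        exact hx p (hvp ▸ hv)
      · exact hne v hvp
    · refine ⟨((hH' _ x).1).trans (Finset.union_subset himg Finset.subset_union_right),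
        fun hx => ?_⟩
      have hagree : ∀ v ∈ x.w.support, f v = f' v ∧ f' v = g v := fun v hv => by
        by_cases hvp : v = p
        · subst hvp
          exact ⟨(hx v hv).trans hf'g.symm, hf'g⟩
        · exact ⟨hne v hvp, (hne v hvp).symm.trans (hx v hv)⟩
      rw [(hH' _ x).2 fun v hv => (hagree v hv).2]
      exact (mapO_congr _ _ _ fun v hv => (hagree v hv).1).symm

end Real

end P259.Complex
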