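import Mathlib
import Vale.Agent.P259.Complex.Line

/-!
P259, module E: barycentric subdivision of a finite complex, the largest-vertex map, and zigzags
of comparable monotone maps under subdivision.
-/

universe u v w

namespace P259.Complex

open Topology unitInterval

namespace Cx

variable {P : Type u} [PartialOrder P]

/-- A nonempty chain has a greatest element. -/
theorem exists_greatest {s : Finset P} (hs : IsChain (· ≤ ·) (s : Set P)) (hne : s.Nonempty) :
    ∃ a ∈ s, ∀ b ∈ s, b ≤ a := by
  obtain ⟨a, ha⟩ := s.exists_maximal hne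
  refine ⟨a, ha.1, fun b hb => ?_⟩
  by_cases hab : b = a
  · exact hab.le
  · rcases hs hb ha.1 hab with h | h
    · exact h
    · exact ha.2 hb h

/-- The greatest element of a nonempty chain. -/
noncomputable def top {s : Finset P} (hs : IsChain (· ≤ ·) (s : Set P)) (hne : s.Nonempty) : P :=
  (exists_greatest hs hne).choose

theorem top_mem {s : Finset P} (hs : IsChain (· ≤ ·) (s : Set P)) (hne : s.Nonempty) :
    top hs hne ∈ s :=
  (exists_greatest hs hne).choose_spec.1

theorem le_top {s : Finset P} (hs : IsChain (· ≤ ·) (s : Set P)) (hne : s.Nonempty) {b : P}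
    (hb : b ∈ s) : b ≤ top hs hne :=
  (exists_greatest hs hne).choose_spec.2 b hb

variable {V : Type v} {K : Cx V}

theorem Simplex.le_iff {s t : K.Simplex} : s ≤ t ↔ s.1 ⊆ t.1 := Iff.rfl

/-- The greatest value of a simplicial vertex map into an order complex. -/
noncomputable def maxImage [DecidableEq P] (φ : V → P) (hφ : K.IsSimplicial (chains P) φ) :
    K.Simplex →o P where
  toFun s := top (hφ s.1 s.2.1) (s.2.2.image φ)
  monotone' _ _ hst := le_top _ _ (Finset.image_subset_image hst (top_mem _ _))

theorem maxImage_mem [DecidableEq P] (φ : V → P) (hφ : K.IsSimplicial (chains P) φ)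
    (s : K.Simplex) : maxImage φ hφ s ∈ s.1.image φ :=
  top_mem (hφ s.1 s.2.1) (s.2.2.image φ)

theorem le_maxImage [DecidableEq P] (φ : V → P) (hφ : K.IsSimplicial (chains P) φ)
    (s : K.Simplex) {v : V} (hv : v ∈ s.1) : φ v ≤ maxImage φ hφ s :=
  le_top (hφ s.1 s.2.1) (s.2.2.image φ) (Finset.mem_image_of_mem φ hv)

section SdMap

open scoped Classical

variable {Q : Type v} {R : Type w} [PartialOrder Q] [PartialOrder R]

/-- The subdivision of a monotone map. -/
noncomputable def sdMap (f : P →o Q) : (chains P).Simplex →o (chains Q).Simplex where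
  toFun s := ⟨s.1.image f, isSimplicial_of_monotone f.monotone s.1 s.2.1, s.2.2.image f⟩
  monotone' _ _ hst := Finset.image_subset_image hst

theorem sdMap_val (f : P →o Q) (s : (chains P).Simplex) : (sdMap f s).1 = s.1.image f := rfl

theorem sdMap_id : sdMap (OrderHom.id : P →o P) = OrderHom.id := by
  classical
  exact OrderHom.ext _ _ (funext fun s => Subtype.ext (by simp [sdMap_val]))

theorem sdMap_comp (f : P →o Q) (g : Q →o R) : sdMap (g.comp f) = (sdMap g).comp (sdMap f) := by
  classical
  exact OrderHom.ext _ _ (funext fun s => Subtype.ext (by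
    simp [sdMap_val, Finset.image_image]))

/-- Being joined by a zigzag of comparable monotone maps. -/
def Zig (f g : P →o Q) : Prop := Relation.EqvGen (· ≤ ·) f g

theorem Zig.comp_left {f g : P →o Q} (h : Zig f g) (e : Q →o R) :
    Zig (e.comp f) (e.comp g) := by
  induction h with
  | rel a b hab => exact .rel _ _ fun p => e.monotone (hab p)
  | refl a => exact .refl _
  | symm a b _ ih => exact ih.symm
  | trans a b c _ _ ih₁ ih₂ => exact ih₁.trans _ _ _ ih₂

theorem Zig.comp_right {f g : P →o Q} (h : Zig f g) (e : R →o P) :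
    Zig (f.comp e) (g.comp e) := by
  induction h with
  | rel a b hab => exact .rel _ _ fun r => hab (e r)
  | refl a => exact .refl _
  | symm a b _ ih => exact ih.symm
  | trans a b c _ _ ih₁ ih₂ => exact ih₁.trans _ _ _ ih₂

theorem Zig.sd [Fintype P] {f g : P →o Q} (h : Zig f g) : Zig (sdMap f) (sdMap g) := by
  classical
  induction h with
  | rel a b hab =>
    refine le_induction (motive := fun f g => Zig (sdMap f) (sdMap g))
      (fun f => .refl _) ?_ a b hab
    intro f f' g p hp hne _ _ hind
    let U : (chains P).Simplex →o (chains Q).Simplex :=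
      { toFun := fun s => ⟨s.1.image f ∪ s.1.image f',
          isChain_union_of_agree f.monotone f'.monotone hp hne s.2.1,
          (s.2.2.image f).mono Finset.subset_union_left⟩
        monotone' := fun s t hst => Finset.union_subset_union
          (Finset.image_subset_image hst) (Finset.image_subset_image hst) }
    have h₁ : sdMap f ≤ U := fun s => by
      rw [Simplex.le_iff, sdMap_val]
      exact Finset.subset_union_left
    have h₂ : sdMap f' ≤ U := fun s => by
      rw [Simplex.le_iff, sdMap_val]
      exact Finset.subset_union_right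
    exact (Relation.EqvGen.rel _ _ h₁).trans _ _ _
      (((Relation.EqvGen.rel _ _ h₂).symm).trans _ _ _ hind)
  | refl a => exact .refl _
  | symm a b _ ih => exact ih.symm
  | trans a b c _ _ ih₁ ih₂ => exact ih₁.trans _ _ _ ih₂

end SdMap

end Cx

namespace Real

open scoped Classical

variable {V : Type u} {K : Cx V}

/-- Zigzags of comparable monotone maps give homotopic realisations. -/
theorem homotopic_of_zig {P : Type u} {Q : Type v} [PartialOrder P] [PartialOrder Q] [Fintype P]
    {f g : P →o Q} (h : Cx.Zig f g) : ContinuousMap.Homotopic (mapO f) (mapO g) := by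
  induction h with
  | rel a b hab => exact ⟨(exists_homotopy_of_le a b hab).choose⟩
  | refl a => exact .refl _
  | symm a b _ ih => exact ih.symm
  | trans a b c _ _ ih₁ ih₂ => exact ih₁.trans ih₂

/-- The coordinates of a combination of barycentres. -/
noncomputable def baryVal (a : K.Simplex →₀ ℝ) (v : V) : ℝ :=
  ∑ s ∈ a.support, if v ∈ s.1 then a s / s.1.card else 0

theorem baryVal_of_subset (a : K.Simplex →₀ ℝ) (v : V) {S : Finset K.Simplex}
    (hS : a.support ⊆ S) : baryVal a v = ∑ s ∈ S, if v ∈ s.1 then a s / s.1.card else 0 :=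
  Finset.sum_subset hS fun s _ hs => by simp [Finsupp.notMem_support_iff.1 hs]

theorem baryVal_nonneg {a : K.Simplex →₀ ℝ} (ha : ∀ s, 0 ≤ a s) (v : V) : 0 ≤ baryVal a v :=
  Finset.sum_nonneg fun s _ => by
    split
    · exact div_nonneg (ha s) (Nat.cast_nonneg _)
    · exact le_rfl

/-- The barycentric map. -/
noncomputable def bary (x : Real (Cx.chains K.Simplex)) : Real K where
  w := Finsupp.onFinset (Cx.top x.mem x.support_nonempty).1 (baryVal x.w) (fun v hv => by
    by_contra h
    refine hv (Finset.sum_eq_zero fun s hs => if_neg fun hvs => h ?_)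
    exact Cx.le_top x.mem x.support_nonempty hs hvs)
  nonneg := fun v => baryVal_nonneg x.nonneg v
  total := by
    rw [Finsupp.sum_of_support_subset _ Finsupp.support_onFinset_subset _ (fun _ _ => rfl)]
    simp only [Finsupp.onFinset_apply, baryVal]
    rw [Finset.sum_comm]
    calc ∑ s ∈ x.w.support, ∑ v ∈ (Cx.top x.mem x.support_nonempty).1,
          (if v ∈ s.1 then x.w s / s.1.card else 0)
        = ∑ s ∈ x.w.support, x.w s := Finset.sum_congr rfl fun s hs => by
          rw [← Finset.sum_filter, Finset.filter_mem_eq_inter, Finset.inter_eq_right.2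
            (Cx.le_top x.mem x.support_nonempty hs : s.1 ⊆ _), Finset.sum_const, nsmul_eq_mul]
          have : (s.1.card : ℝ) ≠ 0 := Nat.cast_ne_zero.2 (Finset.card_pos.2 s.2.2).ne'
          field_simp
      _ = 1 := x.total
  mem := K.down (Cx.top x.mem x.support_nonempty).2.1 Finsupp.support_onFinset_subset

theorem bary_apply (x : Real (Cx.chains K.Simplex)) (v : V) :
    (bary x).w v = baryVal x.w v := rfl

theorem bary_pos {x : Real (Cx.chains K.Simplex)} {s : K.Simplex} (hs : s ∈ x.w.support)
    {v : V} (hv : v ∈ s.1) : 0 < (bary x).w v := by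
  rw [bary_apply, baryVal]
  refine lt_of_lt_of_le ?_ (Finset.single_le_sum (fun t _ => ?_) hs)
  · rw [if_pos hv]
    exact div_pos ((x.nonneg s).lt_of_ne (Finsupp.mem_support_iff.1 hs).symm)
      (Nat.cast_pos.2 (Finset.card_pos.2 s.2.2))
  · split
    · exact div_nonneg (x.nonneg t) (Nat.cast_nonneg _)
    · exact le_rfl

theorem bary_support (x : Real (Cx.chains K.Simplex)) :
    (bary x).w.support = (Cx.top x.mem x.support_nonempty).1 :=
  Finset.Subset.antisymm (by
    intro v hv
    rw [Finsupp.mem_support_iff, bary_apply] at hv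
    by_contra h
    exact hv (Finset.sum_eq_zero fun s hs => if_neg fun hvs =>
      h (Cx.le_top x.mem x.support_nonempty hs hvs))) fun _ hv =>
    Finsupp.mem_support_iff.2 (bary_pos (Cx.top_mem _ _) hv).ne'

theorem subset_bary_support {x : Real (Cx.chains K.Simplex)} {s : K.Simplex}
    (hs : s ∈ x.w.support) : s.1 ⊆ (bary x).w.support :=
  fun _ hv => Finsupp.mem_support_iff.2 (bary_pos hs hv).ne'

/-- The simplices carrying a combination of barycentres are its upper level sets. -/
theorem mem_support_iff_levelSet (x : Real (Cx.chains K.Simplex)) (s : K.Simplex) :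
    s ∈ x.w.support ↔ ∃ c, 0 < c ∧ ∀ v, v ∈ s.1 ↔ c ≤ (bary x).w v := by
  have hterm : ∀ (t : K.Simplex) (v : V), 0 ≤ (if v ∈ t.1 then x.w t / t.1.card else 0) := by
    intro t v
    split
    · exact div_nonneg (x.nonneg t) (Nat.cast_nonneg _)
    · exact le_rfl
  have hchain : ∀ t ∈ x.w.support, ∀ u ∈ x.w.support, t.1 ⊆ u.1 ∨ u.1 ⊆ t.1 := by
    intro t ht u hu
    by_cases h : t = u
    · exact Or.inl (h ▸ subset_rfl)
    · exact x.mem ht hu h
  have hge : ∀ t ∈ x.w.support, ∀ v ∈ t.1, ∀ u,
      (∀ r ∈ x.w.support, u ∈ r.1 → t.1 ⊆ r.1) → (bary x).w u ≤ (bary x).w v := by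
    intro t _ v hv u hu
    rw [bary_apply, bary_apply]
    refine Finset.sum_le_sum fun r hr => ?_
    by_cases hur : u ∈ r.1
    · rw [if_pos hur, if_pos (hu r hr hur hv)]
    · rw [if_neg hur]
      exact hterm r v
  have hlt : ∀ t ∈ x.w.support, ∀ v ∈ t.1, ∀ u, u ∉ t.1 → (bary x).w u < (bary x).w v := by
    intro t ht v hv u hu
    rw [bary_apply, bary_apply]
    refine Finset.sum_lt_sum (fun r hr => ?_) ⟨t, ht, ?_⟩
    · by_cases hur : u ∈ r.1
      · rcases hchain t ht r hr with h | h
        · rw [if_pos hur, if_pos (h hv)]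
        · exact absurd (h hur) hu
      · rw [if_neg hur]
        exact hterm r v
    · rw [if_neg hu, if_pos hv]
      exact div_pos ((x.nonneg t).lt_of_ne (Finsupp.mem_support_iff.1 ht).symm)
        (Nat.cast_pos.2 (Finset.card_pos.2 t.2.2))
  constructor
  · intro hs
    obtain ⟨v₀, hv₀, hmin⟩ := Finset.exists_min_image s.1 (fun v => (bary x).w v) s.2.2
    refine ⟨_, bary_pos hs hv₀, fun v => ⟨hmin v, fun hv => ?_⟩⟩
    by_contra h
    exact (hlt s hs v₀ hv₀ v h).not_ge hv
  · rintro ⟨c, hc, hcs⟩
    obtain ⟨v₀, hv₀, hmin⟩ := Finset.exists_min_image s.1 (fun v => (bary x).w v) s.2.2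
    have hne : (x.w.support.filter fun t => v₀ ∈ t.1).Nonempty := by
      by_contra h
      have h0 : (bary x).w v₀ = 0 := Finset.sum_eq_zero fun t ht =>
        if_neg fun hv => h ⟨t, Finset.mem_filter.2 ⟨ht, hv⟩⟩
      linarith [(hcs v₀).1 hv₀]
    obtain ⟨t, ht⟩ := (x.w.support.filter fun t => v₀ ∈ t.1).exists_minimal hne
    have htx := (Finset.mem_filter.1 ht.1).1
    have htv := (Finset.mem_filter.1 ht.1).2
    have hts : t = s := by
      refine Subtype.ext (Finset.ext fun v => ⟨fun hv => (hcs v).2 ?_, fun hv => ?_⟩)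
      · refine ((hcs v₀).1 hv₀).trans (hge t htx v hv v₀ fun r hr hr₀ => ?_)
        rcases hchain t htx r hr with h | h
        · exact h
        · exact ht.2 (Finset.mem_filter.2 ⟨hr, hr₀⟩) h
      · by_contra h
        exact (hlt t htx v₀ htv v h).not_ge (hmin v hv)
    exact hts ▸ htx

theorem bary_injective : Function.Injective (bary (K := K)) := by
  intro x y hxy
  have hsupp : x.w.support = y.w.support := Finset.ext fun s => by
    rw [mem_support_iff_levelSet, mem_support_iff_levelSet, hxy]
  suffices h : ∀ n, ∀ s : K.Simplex, (x.w.support.filter fun t => s < t).card = n →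
      x.w s = y.w s from Real.ext (Finsupp.ext fun s => h _ s rfl)
  intro n
  induction n using Nat.strong_induction_on with
  | _ n ih =>
    intro s hn
    by_cases hs : s ∈ x.w.support
    swap
    · rw [Finsupp.notMem_support_iff.1 hs, Finsupp.notMem_support_iff.1 (hsupp ▸ hs)]
    -- a vertex of `s` outside all smaller simplices of the chain
    have hex : ∃ v ∈ s.1, ∀ t ∈ x.w.support, v ∈ t.1 → s ≤ t := by
      by_cases hne : (x.w.support.filter fun t => t < s).Nonempty
      · obtain ⟨t, ht⟩ := (x.w.support.filter fun t => t < s).exists_maximal hne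
        obtain ⟨ht1, ht2⟩ := Finset.mem_filter.1 ht.1
        obtain ⟨v, hv, hvt⟩ := Finset.exists_of_ssubset (show t.1 ⊂ s.1 from ht2)
        refine ⟨v, hv, fun r hr hvr => ?_⟩
        by_cases hrs : r = s
        · exact hrs.ge
        rcases x.mem hr hs hrs with h | h
        · exfalso
          have hlt : r < s := lt_of_le_of_ne h hrs
          by_cases hrt : r = t
          · exact hvt (hrt ▸ hvr)
          rcases x.mem hr ht1 hrt with h' | h'
          · exact hvt (h' hvr)
          · exact hvt (ht.2 (Finset.mem_filter.2 ⟨hr, hlt⟩) h' hvr)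
        · exact h
      · obtain ⟨v, hv⟩ := s.2.2
        refine ⟨v, hv, fun r hr _ => ?_⟩
        by_cases hrs : r = s
        · exact hrs.ge
        rcases x.mem hr hs hrs with h | h
        · exact absurd ⟨r, Finset.mem_filter.2 ⟨hr, lt_of_le_of_ne h hrs⟩⟩ hne
        · exact h
    obtain ⟨v, hv, hvonly⟩ := hex
    have hxv : (bary x).w v = (bary y).w v := by rw [hxy]
    rw [bary_apply, bary_apply, baryVal, baryVal, ← hsupp, ← Finset.add_sum_erase _ _ hs,
      ← Finset.add_sum_erase _ _ hs, if_pos hv, if_pos hv] at hxv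
    have hrest : ∀ t ∈ x.w.support.erase s, (if v ∈ t.1 then x.w t / t.1.card else 0)
        = (if v ∈ t.1 then y.w t / t.1.card else 0) := by
      intro t ht
      obtain ⟨hts, htx⟩ := Finset.mem_erase.1 ht
      split
      · next hvt =>
          have hlt : s < t := lt_of_le_of_ne (hvonly t htx hvt) (Ne.symm hts)
          rw [ih _ ?_ t rfl]
          rw [← hn]
          refine Finset.card_lt_card ((Finset.ssubset_iff_of_subset fun r hr => ?_).2
            ⟨t, Finset.mem_filter.2 ⟨htx, hlt⟩, fun h => (Finset.mem_filter.1 h).2.false⟩)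
          obtain ⟨hr1, hr2⟩ := Finset.mem_filter.1 hr
          exact Finset.mem_filter.2 ⟨hr1, hlt.trans hr2⟩
      · rfl
    rw [Finset.sum_congr rfl hrest, add_left_inj] at hxv
    have : (s.1.card : ℝ) ≠ 0 := Nat.cast_ne_zero.2 (Finset.card_pos.2 s.2.2).ne'
    field_simp at hxv
    exact hxv

theorem exists_baryVal_eq : ∀ (n : ℕ) (w : V →₀ ℝ), w.support.card = n → (∀ v, 0 ≤ w v) →
    w.support ∈ K.simp → ∃ a : K.Simplex →₀ ℝ, (∀ s, 0 ≤ a s) ∧
      IsChain (· ≤ ·) (a.support : Set K.Simplex) ∧ (∀ s ∈ a.support, s.1 ⊆ w.support) ∧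
      ∀ v, baryVal a v = w v := by
  intro n
  induction n using Nat.strong_induction_on with
  | _ n ih =>
    intro w hn hw hmem
    by_cases hne : w.support.Nonempty
    swap
    · refine ⟨0, fun _ => le_rfl, by simp [IsChain, Set.Pairwise], by simp, fun v => ?_⟩
      rw [Finsupp.notMem_support_iff.1 fun hv => hne ⟨v, hv⟩]
      simp [baryVal]
    obtain ⟨v₀, hv₀, hmin⟩ := Finset.exists_min_image w.support w hne
    let w' : V →₀ ℝ := Finsupp.onFinset w.support
      (fun v => if v ∈ w.support then w v - w v₀ else 0) (fun v hv => by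
        by_contra h
        exact hv (if_neg h))
    have hw'sub : w'.support ⊆ w.support.erase v₀ := by
      intro v hv
      refine Finset.mem_erase.2 ⟨?_, Finsupp.support_onFinset_subset hv⟩
      rintro rfl
      exact Finsupp.mem_support_iff.1 hv (by simp only [w', Finsupp.onFinset_apply, if_pos hv₀, sub_self])
    have hw' : ∀ v, 0 ≤ w' v := fun v => by
      by_cases hv : v ∈ w.support
      · simp only [w', Finsupp.onFinset_apply, if_pos hv]
        linarith [hmin v hv]
      · simp only [w', Finsupp.onFinset_apply, if_neg hv, le_refl]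
    have hcard : w'.support.card < n :=
      hn ▸ (Finset.card_le_card hw'sub).trans_lt (Finset.card_erase_lt_of_mem hv₀)
    obtain ⟨a, ha, hchain, hsub, hval⟩ := ih _ hcard w' rfl hw'
      (K.down hmem (hw'sub.trans (Finset.erase_subset _ _)))
    let S : K.Simplex := ⟨w.support, hmem, hne⟩
    have hsubS : ∀ t ∈ a.support, t ≤ S := fun t ht =>
      (hsub t ht).trans (hw'sub.trans (Finset.erase_subset _ _))
    have hS : S ∉ a.support := fun h => by
      have := (hsub S h).trans hw'sub
      exact (Finset.mem_erase.1 (this hv₀)).1 rfl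
    let b : K.Simplex →₀ ℝ := a + Finsupp.single S (w v₀ * S.1.card)
    have hb : b.support ⊆ insert S a.support := Finsupp.support_add.trans
      (Finset.union_subset (Finset.subset_insert _ _)
        (Finsupp.support_single_subset.trans (by simp)))
    refine ⟨b, fun s => ?_, ?_, fun s hs => ?_, fun v => ?_⟩
    · simp only [b, Finsupp.add_apply, Finsupp.single_apply]
      split
      · exact add_nonneg (ha s) (mul_nonneg (hw v₀) (Nat.cast_nonneg _))
      · simpa using ha s
    · refine (hchain.insert (a := S) fun t ht _ => Or.inr (hsubS t ht)).mono ?_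
      intro s hs
      simpa [Set.mem_insert_iff] using hb hs
    · rcases Finset.mem_insert.1 (hb hs) with h | h
      · subst h
        exact subset_rfl
      · exact hsubS s h
    · have hbs : b S = w v₀ * S.1.card := by
        simp [b, Finsupp.notMem_support_iff.1 hS]
      rw [baryVal_of_subset b v hb, Finset.sum_insert hS, hbs]
      have hsum : ∑ t ∈ a.support, (if v ∈ t.1 then b t / t.1.card else 0) = w' v := by
        rw [← hval v]
        refine Finset.sum_congr rfl fun t ht => ?_
        have : b t = a t := by
          simp [b, Finsupp.single_eq_of_ne (show t ≠ S from fun h => hS (h ▸ ht))]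
        rw [this]
      rw [hsum]
      have : (S.1.card : ℝ) ≠ 0 := Nat.cast_ne_zero.2 (Finset.card_pos.2 S.2.2).ne'
      by_cases hv : v ∈ w.support
      · rw [if_pos (show v ∈ S.1 from hv), mul_div_cancel_right₀ _ this]
        simp only [w', Finsupp.onFinset_apply, if_pos hv]
        ring
      · rw [if_neg (show v ∉ S.1 from hv), zero_add, Finsupp.notMem_support_iff.1 hv]
        simp only [w', Finsupp.onFinset_apply, if_neg hv]

theorem bary_surjective : Function.Surjective (bary (K := K)) := by
  intro y
  obtain ⟨a, ha, hchain, hsub, hval⟩ := exists_baryVal_eq _ y.w rfl y.nonneg y.mem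
  have htot : a.sum (fun _ c => c) = 1 := by
    refine Eq.trans ?_ (y.sum_eq_one subset_rfl)
    rw [Finset.sum_congr rfl fun v (_ : v ∈ y.w.support) => (hval v).symm]
    show _ = ∑ v ∈ y.w.support, baryVal a v
    simp only [baryVal, Finsupp.sum]
    rw [Finset.sum_comm]
    refine Finset.sum_congr rfl fun s hs => ?_
    rw [← Finset.sum_filter, Finset.filter_mem_eq_inter, Finset.inter_eq_right.2 (hsub s hs),
      Finset.sum_const, nsmul_eq_mul]
    have : (s.1.card : ℝ) ≠ 0 := Nat.cast_ne_zero.2 (Finset.card_pos.2 s.2.2).ne'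
    field_simp
  exact ⟨⟨a, ha, htot, hchain⟩, Real.ext (Finsupp.ext fun v => hval v)⟩

theorem continuous_bary [Fintype V] : Continuous (bary (K := K)) := by
  refine continuous_of_coord Finset.univ (fun _ => Finset.subset_univ _) fun v _ => ?_
  simp only [bary_apply]
  have h : (fun x : Real (Cx.chains K.Simplex) => baryVal x.w v)
      = fun x => ∑ s : K.Simplex, if v ∈ s.1 then x.w s / (s.1.card : ℝ) else 0 :=
    funext fun x => baryVal_of_subset _ _ (Finset.subset_univ _)
  rw [h]
  refine continuous_finsetSum _ fun s _ => ?_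
  split
  · exact (continuous_coord s).div_const _
  · exact continuous_const

/-- Barycentric subdivision does not change the realisation. -/
noncomputable def baryHomeo [Fintype V] : Real (Cx.chains K.Simplex) ≃ₜ Real K :=
  (continuous_bary (K := K)).homeoOfEquivCompactToT2
    (f := Equiv.ofBijective bary ⟨bary_injective, bary_surjective⟩)

theorem baryHomeo_apply [Fintype V] (x : Real (Cx.chains K.Simplex)) :
    baryHomeo x = bary x := rfl

/-- The realisation of the greatest-vertex map is homotopic to the simplicial map read through the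
barycentric map, each point moving inside one image simplex. -/
theorem maxImage_support {P : Type v} [PartialOrder P] (φ : V → P)
    (hφ : K.IsSimplicial (Cx.chains P) φ) (x : Real (Cx.chains K.Simplex)) :
    (mapO (Cx.maxImage φ hφ) x).w.support ∪ (map φ hφ (bary x)).w.support
      ⊆ (bary x).w.support.image φ := by
  refine Finset.union_subset ((mapO_support _ x).trans ?_) (map_support φ hφ _)
  intro p hp
  obtain ⟨s, hs, rfl⟩ := Finset.mem_image.1 hp
  exact Finset.image_subset_image (subset_bary_support hs) (Cx.maxImage_mem φ hφ s)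

end Real

end P259.Complex
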