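import Mathlib
import Vale.Agent.P259.Complex.Sd

/-!
P259, module E: iterated subdivisions of a simplex as order complexes of finite posets, with mesh
bound, faces, contractibility of faces by zigzags, and simplicial approximation by heavy vertices.
-/

universe u v

namespace P259.Complex

open Topology unitInterval

open scoped Classical

/-- A subdivision of the `k`-simplex by the order complex of a finite poset. -/
structure Subdivision (k : ℕ) where
  T : Type
  order : PartialOrder T
  fintype : Fintype T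
  carrier : T → Finset (Fin (k + 1))
  carrier_nonempty : ∀ t, (carrier t).Nonempty
  carrier_mono : ∀ {a b}, a ≤ b → carrier a ⊆ carrier b
  pt : T → Fin (k + 1) → ℝ
  pt_nonneg : ∀ t v, 0 ≤ pt t v
  pt_sum : ∀ t, ∑ v, pt t v = 1
  pt_ne_zero_iff : ∀ t v, pt t v ≠ 0 ↔ v ∈ carrier t
  chain_card : ∀ s : Finset T, IsChain (fun a b => a ≤ b) (s : Set T) → s.card ≤ k + 1
  h : Real (Cx.chains T) ≃ₜ Real (Cx.full (Fin (k + 1)))
  h_apply : ∀ (x : Real (Cx.chains T)) v, (h x).w v = ∑ t, x.w t * pt t v

attribute [instance] Subdivision.order Subdivision.fintype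

namespace Subdivision

variable {k : ℕ}

theorem card_inj_of_chain {α : Type u} {K : Cx α} {s : Finset K.Simplex}
    (hs : IsChain (· ≤ ·) (s : Set K.Simplex)) :
    Set.InjOn (fun a : K.Simplex => a.1.card) (s : Set K.Simplex) := by
  intro a ha b hb hab
  by_contra hne
  rcases hs ha hb hne with h | h
  · exact hne (Subtype.ext (Finset.eq_of_subset_of_card_le h hab.ge))
  · exact hne (Subtype.ext (Finset.eq_of_subset_of_card_le h hab.le).symm)

theorem chain_card_simplex {α : Type u} {K : Cx α} (hK : ∀ s : K.Simplex, s.1.card ≤ k + 1)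
    (s : Finset K.Simplex) (hs : IsChain (· ≤ ·) (s : Set K.Simplex)) : s.card ≤ k + 1 := by
  calc s.card ≤ (Finset.Icc 1 (k + 1)).card := Finset.card_le_card_of_injOn _
        (fun a _ => Finset.mem_Icc.2 ⟨Finset.card_pos.2 a.2.2, hK a⟩) (card_inj_of_chain hs)
    _ = k + 1 := by simp

/-- The barycentric subdivision of the simplex. -/
noncomputable def base (k : ℕ) : Subdivision k where
  T := (Cx.full (Fin (k + 1))).Simplex
  order := inferInstance
  fintype := inferInstance
  carrier s := s.1
  carrier_nonempty s := s.2.2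
  carrier_mono h := h
  pt s v := if v ∈ s.1 then (1 : ℝ) / s.1.card else 0
  pt_nonneg s v := by
    split
    · exact div_nonneg zero_le_one (Nat.cast_nonneg _)
    · exact le_rfl
  pt_sum s := by
    rw [← Finset.sum_filter, Finset.filter_mem_eq_inter, Finset.univ_inter, Finset.sum_const,
      nsmul_eq_mul]
    have : (s.1.card : ℝ) ≠ 0 := Nat.cast_ne_zero.2 (Finset.card_pos.2 s.2.2).ne'
    field_simp
  pt_ne_zero_iff s v := by
    have : (s.1.card : ℝ) ≠ 0 := Nat.cast_ne_zero.2 (Finset.card_pos.2 s.2.2).ne'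
    by_cases hv : v ∈ s.1 <;> simp [hv, this]
  chain_card := chain_card_simplex fun s => (Finset.card_le_univ _).trans (by simp)
  h := Real.baryHomeo
  h_apply x v := by
    rw [Real.baryHomeo_apply, Real.bary_apply,
      Real.baryVal_of_subset _ _ (Finset.subset_univ _)]
    refine Finset.sum_congr rfl fun s _ => ?_
    split
    · rw [mul_one_div]
    · rw [mul_zero]

variable (S : Subdivision k)

theorem carrier_top_eq {s : Finset S.T} (hs : IsChain (· ≤ ·) (s : Set S.T)) (hne : s.Nonempty)
    (v : Fin (k + 1)) : v ∈ S.carrier (Cx.top hs hne) ↔ ∃ t ∈ s, v ∈ S.carrier t :=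
  ⟨fun h => ⟨_, Cx.top_mem hs hne, h⟩,
    fun ⟨_, ht, h⟩ => S.carrier_mono (Cx.le_top hs hne ht) h⟩

/-- One further barycentric subdivision. -/
noncomputable def next : Subdivision k where
  T := (Cx.chains S.T).Simplex
  order := inferInstance
  fintype := inferInstance
  carrier c := S.carrier (Cx.top c.2.1 c.2.2)
  carrier_nonempty c := S.carrier_nonempty _
  carrier_mono {a b} h :=
    S.carrier_mono (Cx.le_top b.2.1 b.2.2 (h (Cx.top_mem a.2.1 a.2.2)))
  pt c v := (∑ t ∈ c.1, S.pt t v) / c.1.card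
  pt_nonneg c v := div_nonneg (Finset.sum_nonneg fun t _ => S.pt_nonneg t v) (Nat.cast_nonneg _)
  pt_sum c := by
    rw [← Finset.sum_div, Finset.sum_comm, Finset.sum_congr rfl fun t _ => S.pt_sum t,
      Finset.sum_const, nsmul_eq_mul, mul_one, div_self]
    exact Nat.cast_ne_zero.2 (Finset.card_pos.2 c.2.2).ne'
  pt_ne_zero_iff c v := by
    have : (c.1.card : ℝ) ≠ 0 := Nat.cast_ne_zero.2 (Finset.card_pos.2 c.2.2).ne'
    rw [div_ne_zero_iff, S.carrier_top_eq c.2.1 c.2.2, and_iff_left this,
      ne_eq, Finset.sum_eq_zero_iff_of_nonneg fun t _ => S.pt_nonneg t v]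
    simp only [not_forall, exists_prop, ← S.pt_ne_zero_iff, ne_eq]
  chain_card := chain_card_simplex fun c => S.chain_card c.1 c.2.1
  h := Real.baryHomeo.trans S.h
  h_apply x v := by
    rw [Homeomorph.trans_apply, S.h_apply, Real.baryHomeo_apply]
    simp only [Real.bary_apply, Real.baryVal_of_subset x.w _ (Finset.subset_univ _),
      Finset.sum_mul]
    rw [Finset.sum_comm]
    refine Finset.sum_congr rfl fun c _ => ?_
    rw [Finset.sum_div, Finset.mul_sum, ← Finset.sum_subset (Finset.subset_univ c.1)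
      (fun t _ ht => by simp [ht])]
    refine Finset.sum_congr rfl fun t ht => ?_
    rw [if_pos ht]
    ring

/-- The iterated barycentric subdivisions (`N + 1` steps). -/
noncomputable def iter (k : ℕ) : ℕ → Subdivision k
  | 0 => base k
  | N + 1 => (iter k N).next

theorem pt_le_one (t : S.T) (v : Fin (k + 1)) : S.pt t v ≤ 1 :=
  (Finset.single_le_sum (fun u _ => S.pt_nonneg t u) (Finset.mem_univ v)).trans_eq (S.pt_sum t)

/-- All comparable vertices are closer than `m` in every coordinate. -/
def MeshLE (m : ℝ) : Prop := ∀ a b : S.T, a ≤ b → ∀ v, |S.pt a v - S.pt b v| ≤ m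

theorem meshLE_one : S.MeshLE 1 := fun a b _ v =>
  abs_sub_le_iff.2 ⟨by linarith [S.pt_le_one a v, S.pt_nonneg b v],
    by linarith [S.pt_le_one b v, S.pt_nonneg a v]⟩

theorem abs_le_of_comparable {m : ℝ} (hS : S.MeshLE m) {s : Finset S.T}
    (hs : IsChain (· ≤ ·) (s : Set S.T)) {a b : S.T} (ha : a ∈ s) (hb : b ∈ s) (hab : a ≠ b)
    (v : Fin (k + 1)) : |S.pt a v - S.pt b v| ≤ m := by
  rcases hs ha hb hab with h | h
  · exact hS a b h v
  · rw [abs_sub_comm]
    exact hS b a h v

theorem meshLE_next {m : ℝ} (hm : 0 ≤ m) (hS : S.MeshLE m) :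
    S.next.MeshLE ((k : ℝ) / (k + 1) * m) := by
  intro c d hcd v
  show |(∑ t ∈ c.1, S.pt t v) / c.1.card - (∑ t ∈ d.1, S.pt t v) / d.1.card| ≤ _
  have hc : (0 : ℝ) < c.1.card := Nat.cast_pos.2 (Finset.card_pos.2 c.2.2)
  have hd : (0 : ℝ) < d.1.card := Nat.cast_pos.2 (Finset.card_pos.2 d.2.2)
  have hone : ∀ t ∈ c.1,
      |S.pt t v - (∑ u ∈ d.1, S.pt u v) / d.1.card| ≤ (k : ℝ) / (k + 1) * m := by
    intro t ht
    have hterm : |S.pt t v - (∑ u ∈ d.1, S.pt u v) / d.1.card|
        = |∑ u ∈ d.1.erase t, (S.pt t v - S.pt u v)| / d.1.card := by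
      rw [Finset.sum_erase _ (sub_self _), Finset.sum_sub_distrib, Finset.sum_const,
        nsmul_eq_mul, ← abs_of_pos hd, ← abs_div, abs_of_pos hd, sub_div,
        mul_div_cancel_left₀ _ hd.ne']
    rw [hterm, div_le_iff₀ hd]
    refine (Finset.abs_sum_le_sum_abs _ _).trans ((Finset.sum_le_sum fun u hu =>
      S.abs_le_of_comparable hS d.2.1 (hcd ht) (Finset.mem_of_mem_erase hu)
        (Finset.ne_of_mem_erase hu).symm v).trans ?_)
    rw [Finset.sum_const, nsmul_eq_mul, Finset.card_erase_of_mem (hcd ht),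
      Nat.cast_sub (Finset.card_pos.2 d.2.2), Nat.cast_one]
    have hdk : (d.1.card : ℝ) ≤ k + 1 := by exact_mod_cast S.chain_card d.1 d.2.1
    have key : ((d.1.card : ℝ) - 1) ≤ (k : ℝ) / (k + 1) * d.1.card := by
      rw [div_mul_eq_mul_div, le_div_iff₀ (by positivity)]
      nlinarith
    calc ((d.1.card : ℝ) - 1) * m ≤ (k : ℝ) / (k + 1) * d.1.card * m :=
          mul_le_mul_of_nonneg_right key hm
      _ = (k : ℝ) / (k + 1) * m * d.1.card := by ring
  have hmain : (∑ t ∈ c.1, S.pt t v) / c.1.card - (∑ t ∈ d.1, S.pt t v) / d.1.card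
      = (∑ t ∈ c.1, (S.pt t v - (∑ u ∈ d.1, S.pt u v) / d.1.card)) / c.1.card := by
    rw [Finset.sum_sub_distrib, Finset.sum_const, nsmul_eq_mul, sub_div,
      mul_div_cancel_left₀ _ hc.ne']
  rw [hmain, abs_div, abs_of_pos hc, div_le_iff₀ hc]
  refine (Finset.abs_sum_le_sum_abs _ _).trans ((Finset.sum_le_sum hone).trans ?_)
  rw [Finset.sum_const, nsmul_eq_mul, mul_comm]

theorem meshLE_iter (k : ℕ) : ∀ N, (iter k N).MeshLE (((k : ℝ) / (k + 1)) ^ N)
  | 0 => by
    rw [pow_zero]
    exact (iter k 0).meshLE_one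
  | N + 1 => by
    rw [pow_succ']
    exact (iter k N).meshLE_next (by positivity) (meshLE_iter k N)

/-- The vertex of `t` is sent to its point. -/
theorem h_vertex (t : S.T) (ht : {t} ∈ (Cx.chains S.T).simp) (v : Fin (k + 1)) :
    (S.h (Real.vertex t ht)).w v = S.pt t v := by
  rw [S.h_apply, Finset.sum_eq_single t]
  · simp [Real.vertex]
  · intro u _ hu
    simp [Real.vertex, Finsupp.single_eq_of_ne hu]
  · simp

theorem singleton_mem (t : S.T) : {t} ∈ (Cx.chains S.T).simp := by
  rw [Cx.mem_chains, Finset.coe_singleton]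
  exact IsChain.singleton

/-- The point of the simplex belonging to a vertex of the subdivision. -/
noncomputable def point (t : S.T) : Real (Cx.full (Fin (k + 1))) :=
  S.h (Real.vertex t (S.singleton_mem t))

theorem point_apply (t : S.T) (v : Fin (k + 1)) : (S.point t).w v = S.pt t v :=
  S.h_vertex t _ v

theorem point_support (t : S.T) : (S.point t).w.support = S.carrier t := by
  ext v
  rw [Finsupp.mem_support_iff, S.point_apply]
  exact S.pt_ne_zero_iff t v

theorem h_support (x : Real (Cx.chains S.T)) :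
    (S.h x).w.support = S.carrier (Cx.top x.mem x.support_nonempty) := by
  ext v
  refine Iff.trans ?_ (S.carrier_top_eq x.mem x.support_nonempty v).symm
  rw [Finsupp.mem_support_iff, S.h_apply, ne_eq,
    Finset.sum_eq_zero_iff_of_nonneg fun t _ => mul_nonneg (x.nonneg t) (S.pt_nonneg t v)]
  simp only [Finset.mem_univ, true_implies, not_forall, mul_eq_zero, not_or,
    ← S.pt_ne_zero_iff, Finsupp.mem_support_iff, ne_eq]

theorem abs_pt_sub_h_le {m : ℝ} (hm : 0 ≤ m) (hS : S.MeshLE m) (x : Real (Cx.chains S.T))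
    {t : S.T} (ht : t ∈ x.w.support) (v : Fin (k + 1)) :
    |S.pt t v - (S.h x).w v| ≤ m := by
  have h1 : (S.h x).w v = ∑ u ∈ x.w.support, x.w u * S.pt u v := by
    rw [S.h_apply]
    exact (Finset.sum_subset (Finset.subset_univ _) fun u _ hu => by
      simp [Finsupp.notMem_support_iff.1 hu]).symm
  have h2 : S.pt t v - (S.h x).w v
      = ∑ u ∈ x.w.support, x.w u * (S.pt t v - S.pt u v) := by
    simp only [mul_sub]
    rw [Finset.sum_sub_distrib, ← Finset.sum_mul, x.sum_eq_one subset_rfl, one_mul, h1]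
  rw [h2]
  refine (Finset.abs_sum_le_sum_abs _ _).trans
    (le_trans (Finset.sum_le_sum (g := fun u => x.w u * m) fun u hu => ?_) (le_of_eq ?_))
  · show |x.w u * (S.pt t v - S.pt u v)| ≤ x.w u * m
    rw [abs_mul, abs_of_nonneg (x.nonneg u)]
    refine mul_le_mul_of_nonneg_left ?_ (x.nonneg u)
    by_cases h : t = u
    · simp [h, hm]
    · exact S.abs_le_of_comparable hS x.mem ht hu h v
  · rw [← Finset.sum_mul, x.sum_eq_one subset_rfl, one_mul]

/-- The largest vertex of the carrier. -/
noncomputable def last : S.T →o Fin (k + 1) where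
  toFun t := (S.carrier t).max' (S.carrier_nonempty t)
  monotone' _ _ h := Finset.max'_subset _ (S.carrier_mono h)

theorem last_mem (t : S.T) : S.last t ∈ S.carrier t :=
  Finset.max'_mem _ (S.carrier_nonempty t)

/-- The vertices inside a face. -/
abbrev Face (F : Finset (Fin (k + 1))) : Type := {t : S.T // S.carrier t ⊆ F}

/-- A face stays contractible by comparable monotone maps under subdivision. -/
theorem zig_face_next (F : Finset (Fin (k + 1))) (q : S.Face F)
    (hq : Cx.Zig (OrderHom.id : S.Face F →o S.Face F) (OrderHom.const _ q)) :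
    ∃ q' : S.next.Face F,
      Cx.Zig (OrderHom.id : S.next.Face F →o S.next.Face F) (OrderHom.const _ q') := by
  let incl : S.Face F →o S.T := ⟨Subtype.val, fun _ _ h => h⟩
  let e : (Cx.chains (S.Face F)).Simplex →o S.next.Face F :=
    { toFun := fun c => ⟨Cx.sdMap incl c, by
        show S.carrier (Cx.top _ _) ⊆ F
        obtain ⟨t, -, ht⟩ := Finset.mem_image.1
          (Cx.top_mem (Cx.sdMap incl c).2.1 (Cx.sdMap incl c).2.2)
        rw [← ht]
        exact t.2⟩
      monotone' := fun _ _ h => (Cx.sdMap incl).monotone h }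
  have hmem : ∀ d : S.next.Face F, ∀ t ∈ d.1.1, S.carrier t ⊆ F := fun d t ht =>
    (S.carrier_mono (Cx.le_top d.1.2.1 d.1.2.2 ht)).trans d.2
  let e' : S.next.Face F →o (Cx.chains (S.Face F)).Simplex :=
    { toFun := fun d => ⟨d.1.1.subtype fun t => S.carrier t ⊆ F, by
        intro a ha b hb hab
        exact d.1.2.1 (Finset.mem_subtype.1 ha) (Finset.mem_subtype.1 hb)
          (fun h => hab (Subtype.ext h)), by
        obtain ⟨t, ht⟩ := d.1.2.2
        exact ⟨⟨t, hmem d t ht⟩, Finset.mem_subtype.2 ht⟩⟩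
      monotone' := fun _ _ h t ht => Finset.mem_subtype.2 (h (Finset.mem_subtype.1 ht)) }
  have hid : ∀ d, e (e' d) = d := by
    intro d
    refine Subtype.ext (Subtype.ext (Finset.ext fun t => ?_))
    show t ∈ (Cx.sdMap incl (e' d)).1 ↔ _
    rw [Cx.sdMap_val, Finset.mem_image]
    exact ⟨fun ⟨u, hu, hut⟩ => hut ▸ Finset.mem_subtype.1 hu,
      fun ht => ⟨⟨t, hmem d t ht⟩, Finset.mem_subtype.2 ht, rfl⟩⟩
  let c₀ : (Cx.chains (S.Face F)).Simplex := ⟨{q}, by
    rw [Cx.mem_chains, Finset.coe_singleton]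
    exact IsChain.singleton, Finset.singleton_nonempty q⟩
  refine ⟨e c₀, ?_⟩
  have key := ((Cx.Zig.sd hq).comp_left e).comp_right e'
  have h₁ : (e.comp (Cx.sdMap OrderHom.id)).comp e' = OrderHom.id :=
    OrderHom.ext _ _ (funext fun d => by simpa [Cx.sdMap_id] using hid d)
  have h₂ : (e.comp (Cx.sdMap (OrderHom.const _ q))).comp e' = OrderHom.const _ (e c₀) := by
    refine OrderHom.ext _ _ (funext fun d => congrArg e (Subtype.ext ?_))
    rw [Cx.sdMap_val]
    refine Finset.ext fun x => ?_
    simp only [Finset.mem_image, c₀, Finset.mem_singleton, OrderHom.const_coe_coe,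
      Function.const_apply]
    exact ⟨fun ⟨_, _, h⟩ => h.symm, fun h => ⟨(e' d).2.2.choose, (e' d).2.2.choose_spec, h.symm⟩⟩
  rw [h₁, h₂] at key
  exact key

/-- Every face of an iterated subdivision is contractible by comparable monotone maps. -/
theorem zig_face (k : ℕ) : ∀ (N : ℕ) (F : Finset (Fin (k + 1))), F.Nonempty →
    ∃ q : (iter k N).Face F,
      Cx.Zig (OrderHom.id : (iter k N).Face F →o (iter k N).Face F) (OrderHom.const _ q)
  | 0, F, hF => ⟨⟨⟨F, Cx.mem_full F, hF⟩, subset_rfl⟩, .rel _ _ fun t => t.2⟩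
  | N + 1, F, hF => by
    obtain ⟨q, hq⟩ := zig_face k N F hF
    exact (iter k N).zig_face_next F q hq

end Subdivision

namespace Subdivision

variable {k : ℕ} {W : Type v} {L : Cx W}

/-- Every point has a coordinate bounded below, uniformly on a compact space. -/
theorem exists_le_coord {Z : Type u} [TopologicalSpace Z] [CompactSpace Z]
    (f : C(Z, Real L)) : ∃ δ > (0 : ℝ), ∀ z, ∃ a, δ ≤ (f z).w a := by
  obtain ⟨A, hA⟩ := Real.exists_within_of_isCompact (isCompact_range f.continuous)
  refine ⟨1 / (A.card + 1), by positivity, fun z => ?_⟩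
  by_contra h
  simp only [not_exists, not_le] at h
  have hsum := (f z).sum_eq_one (hA ⟨z, rfl⟩)
  have hle : ∑ a ∈ A, (f z).w a ≤ A.card * (1 / (A.card + 1) : ℝ) := by
    refine (Finset.sum_le_sum fun a _ => (h a).le).trans ?_
    rw [Finset.sum_const, nsmul_eq_mul]
  rw [hsum, mul_one_div, le_div_iff₀ (by positivity)] at hle
  linarith

/-- Simplicial approximation by heavy vertices: for fine subdivisions, any vertex map sending a
vertex to a vertex of weight at least `δ` in its image point is simplicial and moves each point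
inside the carrier of its image. -/
theorem exists_approx (f : C(Real (Cx.full (Fin (k + 1))), Real L)) {δ : ℝ} (hδ : 0 < δ) :
    ∃ N₀, ∀ N, N₀ ≤ N → ∀ φ : (iter k N).T → W,
      (∀ t, δ ≤ (f ((iter k N).point t)).w (φ t)) →
      (Cx.chains (iter k N).T).IsSimplicial L φ ∧
      ∀ x : Real (Cx.chains (iter k N).T),
        x.w.support.image φ ⊆ (f ((iter k N).h x)).w.support := by
  obtain ⟨A, hA⟩ := Real.exists_within_of_isCompact (isCompact_range f.continuous)
  let D : Set (Real (Cx.full (Fin (k + 1))) × Real (Cx.full (Fin (k + 1)))) :=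
    ⋃ a ∈ A, {p | δ ≤ (f p.1).w a ∧ (f p.2).w a = 0}
  have hD : IsCompact D := by
    refine (A.finite_toSet.isClosed_biUnion fun a _ => ?_).isCompact
    exact (isClosed_le continuous_const
      ((Real.continuous_coord a).comp (f.continuous.comp continuous_fst))).inter
      (isClosed_eq ((Real.continuous_coord a).comp (f.continuous.comp continuous_snd))
        continuous_const)
  let d : Real (Cx.full (Fin (k + 1))) × Real (Cx.full (Fin (k + 1))) → ℝ :=
    fun p => ∑ v, |p.1.w v - p.2.w v|
  have hd : Continuous d := continuous_finsetSum _ fun v _ =>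
    (((Real.continuous_coord v).comp continuous_fst).sub
      ((Real.continuous_coord v).comp continuous_snd)).abs
  obtain ⟨η, hη, hsep⟩ : ∃ η > (0 : ℝ), ∀ p ∈ D, η ≤ d p := by
    by_cases hne : D.Nonempty
    · obtain ⟨p, hp, hmin⟩ := hD.exists_isMinOn hne hd.continuousOn
      refine ⟨d p, ?_, fun q hq => hmin hq⟩
      refine lt_of_le_of_ne (Finset.sum_nonneg fun v _ => abs_nonneg _) fun h => ?_
      have heq : p.1 = p.2 := Real.ext (Finsupp.ext fun v => by
        have := (Finset.sum_eq_zero_iff_of_nonneg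
          (fun v _ => abs_nonneg (p.1.w v - p.2.w v))).1 h.symm v (Finset.mem_univ v)
        exact sub_eq_zero.1 (abs_eq_zero.1 this))
      simp only [D, Set.mem_iUnion] at hp
      obtain ⟨a, -, ha1, ha2⟩ := hp
      rw [heq, ha2] at ha1
      exact absurd ha1 (not_le.2 hδ)
    · exact ⟨1, one_pos, fun q hq => absurd ⟨q, hq⟩ hne⟩
  have hlim : Filter.Tendsto (fun N => (k + 1 : ℝ) * ((k : ℝ) / (k + 1)) ^ N) Filter.atTop
      (𝓝 0) := by
    rw [← mul_zero ((k : ℝ) + 1)]
    refine (tendsto_pow_atTop_nhds_zero_of_lt_one (by positivity) ?_).const_mul _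
    rw [div_lt_one (by positivity)]
    linarith
  obtain ⟨N₀, hN₀⟩ := Filter.eventually_atTop.1 (hlim.eventually (eventually_lt_nhds hη))
  refine ⟨N₀, fun N hN φ hφ => ?_⟩
  have key : ∀ x : Real (Cx.chains (iter k N).T), ∀ t ∈ x.w.support,
      φ t ∈ (f ((iter k N).h x)).w.support := by
    intro x t ht
    rw [Finsupp.mem_support_iff]
    intro h0
    have hφA : φ t ∈ A := hA ⟨_, rfl⟩ (Finsupp.mem_support_iff.2
      (hδ.trans_le (hφ t)).ne')
    have hmemD : ((iter k N).point t, (iter k N).h x) ∈ D := by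
      simp only [D, Set.mem_iUnion]
      exact ⟨φ t, hφA, hφ t, h0⟩
    have hle : d ((iter k N).point t, (iter k N).h x)
        ≤ (k + 1 : ℝ) * ((k : ℝ) / (k + 1)) ^ N := by
      refine (Finset.sum_le_sum fun v _ => ?_).trans_eq (b := ∑ _v : Fin (k + 1),
        ((k : ℝ) / (k + 1)) ^ N) (by simp)
      rw [point_apply]
      exact (iter k N).abs_pt_sub_h_le (by positivity) (meshLE_iter k N) x ht v
    linarith [hsep _ hmemD, hN₀ N hN]
  have himg : ∀ x : Real (Cx.chains (iter k N).T),
      x.w.support.image φ ⊆ (f ((iter k N).h x)).w.support := fun x => by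
    intro y hy
    obtain ⟨t, ht, rfl⟩ := Finset.mem_image.1 hy
    exact key x t ht
  refine ⟨fun s hs _ => ?_, himg⟩
  by_cases hne : s.Nonempty
  · have hc : (0 : ℝ) < s.card := Nat.cast_pos.2 (Finset.card_pos.2 hne)
    let f₀ : stdSimplex ℝ s := ⟨fun _ => 1 / (s.card : ℝ), fun _ => by positivity, by
      rw [Finset.sum_const, Finset.card_univ, Fintype.card_coe, nsmul_eq_mul,
        mul_one_div_cancel hc.ne']⟩
    let x : Real (Cx.chains (iter k N).T) := Real.ofSimplex ⟨s, hs⟩ f₀
    have hx : x.w.support = s := Finset.Subset.antisymm (Real.simplexWeight_support s f₀)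
      fun t ht => Finsupp.mem_support_iff.2 (by
        show Real.simplexWeight s f₀ t ≠ 0
        simp [Real.simplexWeight_apply, ht, f₀, hc.ne'])
    refine L.down (f ((iter k N).h x)).mem fun y hy => ?_
    obtain ⟨t, ht, rfl⟩ := Finset.mem_image.1 hy
    exact key x t (hx ▸ ht)
  · rw [Finset.not_nonempty_iff_eq_empty.1 hne, Finset.image_empty]
    exact L.down (f (Real.vertex 0 (Cx.mem_full _))).mem (Finset.empty_subset _)

end Subdivision

end P259.Complex
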