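import Mathlib
import Vale.Agent.P259.Complex.Subdiv

/-!
P259, module E: monotone approximations of maps of a simplex into an order complex.
-/

universe u v

namespace P259.Complex

open Topology unitInterval

open scoped Classical

namespace Subdivision

variable {k : ℕ}

/-- A point lies in a face exactly when the vertices carrying it do. -/
theorem h_support_subset_iff (S : Subdivision k) (x : Real (Cx.chains S.T))
    (F : Finset (Fin (k + 1))) :
    (S.h x).w.support ⊆ F ↔ ∀ t ∈ x.w.support, S.carrier t ⊆ F := by
  rw [S.h_support]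
  exact ⟨fun h t ht => (S.carrier_mono (Cx.le_top x.mem x.support_nonempty ht)).trans h,
    fun h => h _ (Cx.top_mem x.mem x.support_nonempty)⟩

theorem last_le (S : Subdivision k) (t : S.T) {v : Fin (k + 1)} (hv : v ∈ S.carrier t) :
    v ≤ S.last t :=
  Finset.le_max' _ v hv

/-- A heavy vertex at a point sent to a vertex is that vertex. -/
theorem eq_of_heavy {W : Type v} {L : Cx W} {y : Real L} {p q : W} {δ : ℝ} (hδ : 0 < δ)
    (hy : y.w.support ⊆ {p}) (hq : δ ≤ y.w q) : q = p :=
  Finset.mem_singleton.1 (hy (Finsupp.mem_support_iff.2 (hδ.trans_le hq).ne'))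

/-- Heavy vertices exist. -/
theorem exists_heavy {W : Type v} {L : Cx W} (f : C(Real (Cx.full (Fin (k + 1))), Real L)) :
    ∃ δ > (0 : ℝ), ∀ N, ∃ φ : (iter k N).T → W, ∀ t, δ ≤ (f ((iter k N).point t)).w (φ t) := by
  obtain ⟨δ, hδ, h⟩ := exists_le_coord f
  exact ⟨δ, hδ, fun N => ⟨fun t => (h ((iter k N).point t)).choose,
    fun t => (h ((iter k N).point t)).choose_spec⟩⟩

variable {P : Type u} [PartialOrder P]

/-- The monotone map on the next subdivision given by the largest value of a simplicial vertex
map. -/
noncomputable def monoApprox (N : ℕ) (φ : (iter k N).T → P)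
    (hφ : (Cx.chains (iter k N).T).IsSimplicial (Cx.chains P) φ) : (iter k (N + 1)).T →o P :=
  Cx.maxImage φ hφ

theorem monoApprox_mem (N : ℕ) (φ : (iter k N).T → P)
    (hφ : (Cx.chains (iter k N).T).IsSimplicial (Cx.chains P) φ) (c : (iter k (N + 1)).T) :
    monoApprox N φ hφ c ∈ c.1.image φ :=
  Cx.maxImage_mem φ hφ c

/-- Monotone approximation: for fine subdivisions every heavy vertex map gives a monotone map
whose realisation moves each point inside the carrier simplex of its image. -/
theorem exists_monotone_approx (f : C(Real (Cx.full (Fin (k + 1))), Real (Cx.chains P))) {δ : ℝ}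
    (hδ : 0 < δ) :
    ∃ N₀, ∀ N, N₀ ≤ N → ∀ φ : (iter k N).T → P,
      (∀ t, δ ≤ (f ((iter k N).point t)).w (φ t)) →
      ∃ hφ : (Cx.chains (iter k N).T).IsSimplicial (Cx.chains P) φ,
        ∀ x : Real (Cx.chains (iter k (N + 1)).T),
          (Real.mapO (monoApprox N φ hφ) x).w.support
            ⊆ (f ((iter k (N + 1)).h x)).w.support := by
  obtain ⟨N₀, hN₀⟩ := exists_approx f hδ
  refine ⟨N₀, fun N hN φ hφ => ?_⟩
  obtain ⟨hs, himg⟩ := hN₀ N hN φ hφ
  refine ⟨hs, fun x => ?_⟩
  exact (Finset.subset_union_left.trans (Real.maxImage_support φ hs x)).trans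
    (himg (Real.bary x))

/-- The straight line from a map to an approximation of it. -/
noncomputable def approxHomotopy {S : Subdivision k}
    (f : C(Real (Cx.full (Fin (k + 1))), Real (Cx.chains P)))
    (g : C(Real (Cx.chains S.T), Real (Cx.chains P)))
    (hg : ∀ x, (g x).w.support ⊆ (f (S.h x)).w.support) :
    ContinuousMap.Homotopy (f.comp (S.h : C(Real (Cx.chains S.T), Real (Cx.full (Fin (k + 1))))))
      g :=
  Real.lineHomotopy _ _ fun x =>
    (Cx.chains P).down (f (S.h x)).mem (Finset.union_subset subset_rfl (hg x))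

theorem approxHomotopy_support {S : Subdivision k}
    (f : C(Real (Cx.full (Fin (k + 1))), Real (Cx.chains P)))
    (g : C(Real (Cx.chains S.T), Real (Cx.chains P)))
    (hg : ∀ x, (g x).w.support ⊆ (f (S.h x)).w.support) (t : I) (x : Real (Cx.chains S.T)) :
    (approxHomotopy f g hg (t, x)).w.support ⊆ (f (S.h x)).w.support :=
  (Real.lineHomotopy_support _ _ _ t x).trans (Finset.union_subset subset_rfl (hg x))

/-- Where `f` is a vertex, an approximation agrees with it and so does the homotopy. -/
theorem approxHomotopy_vertex {S : Subdivision k}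
    (f : C(Real (Cx.full (Fin (k + 1))), Real (Cx.chains P)))
    (g : C(Real (Cx.chains S.T), Real (Cx.chains P)))
    (hg : ∀ x, (g x).w.support ⊆ (f (S.h x)).w.support) {p : P}
    {x : Real (Cx.chains S.T)} (hx : (f (S.h x)).w.support ⊆ {p}) (t : I) :
    approxHomotopy f g hg (t, x) = f (S.h x) := by
  have hp : {p} ∈ (Cx.chains P).simp := by
    rw [Cx.mem_chains, Finset.coe_singleton]
    exact IsChain.singleton
  rw [Real.eq_vertex_of_support ((approxHomotopy_support f g hg t x).trans hx) hp,
    Real.eq_vertex_of_support hx hp]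

end Subdivision

namespace Real

/-- The realisation of the full simplex is the standard simplex. -/
noncomputable def fullHomeo (k : ℕ) :
    Real (Cx.full (Fin (k + 1))) ≃ₜ stdSimplex ℝ (Fin (k + 1)) where
  toFun x := ⟨fun v => x.w v, x.nonneg, x.sum_eq_one (Finset.subset_univ _)⟩
  invFun p :=
    { w := Finsupp.equivFunOnFinite.symm p.1
      nonneg := fun v => p.2.1 v
      total := by
        rw [Finsupp.sum_fintype _ _ fun _ => rfl]
        exact p.2.2
      mem := Cx.mem_full _ }
  left_inv x := Real.ext (Finsupp.ext fun v => rfl)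
  right_inv p := Subtype.ext rfl
  continuous_toFun := Continuous.subtype_mk (continuous_pi fun v => continuous_coord v) _
  continuous_invFun := continuous_of_coord Finset.univ (fun _ => Finset.subset_univ _)
    fun v _ => (continuous_apply v).comp continuous_subtype_val

theorem fullHomeo_apply (k : ℕ) (x : Real (Cx.full (Fin (k + 1)))) (v : Fin (k + 1)) :
    (fullHomeo k x).1 v = x.w v := rfl

end Real

end P259.Complex
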