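import Mathlib
import Vale.Agent.P259.Complex.Approx

/-!
P259, module E: maps of pairs which are homotopy equivalences of pairs; the inductive step for
maps of discs given on two hemispheres, by Tietze extension only.
-/

universe u v w

namespace P259.Complex

open Topology unitInterval Set

variable {X : Type u} {Y : Type v} [TopologicalSpace X] [TopologicalSpace Y]

/-- Two maps homotopic through maps sending `A` into `B`. -/
def PairHtpy (A : Set X) (B : Set Y) (f g : C(X, Y)) : Prop :=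
  ∃ F : f.Homotopy g, ∀ t, ∀ a ∈ A, F (t, a) ∈ B

/-- A homotopy equivalence of pairs. -/
def PairEquiv (A : Set X) (B : Set Y) (f : C(X, Y)) : Prop :=
  MapsTo f A B ∧ ∃ φ : C(Y, X), MapsTo φ B A ∧
    PairHtpy A A (φ.comp f) (ContinuousMap.id X) ∧ PairHtpy B B (f.comp φ) (ContinuousMap.id Y)

/-- A homotopy given on a closed subset extends to one between given maps. -/
theorem exists_homotopy_extend [CompactSpace X] [T2Space X] [TietzeExtension.{u, v} Y]
    {A : Set X} (hA : IsClosed A) (f g : C(X, Y)) (h : C(I × A, Y))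
    (h0 : ∀ a : A, h (0, a) = f a) (h1 : ∀ a : A, h (1, a) = g a) :
    ∃ F : f.Homotopy g, ∀ t (a : A), F (t, (a : X)) = h (t, a) := by
  classical
  let G : I × X → Y := fun p =>
    if p.1 = 0 then f p.2 else if p.1 = 1 then g p.2
    else if hp : p.2 ∈ A then h (p.1, ⟨p.2, hp⟩) else f p.2
  have hGA : ∀ t (a : A), G (t, (a : X)) = h (t, a) := by
    intro t a
    by_cases ht : t = 0
    · subst ht
      simp only [G, if_pos, h0 a]
    · by_cases ht1 : t = 1
      · subst ht1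
        simp [G, h1 a]
      · simp [G, ht, ht1, a.2]
  let C₀ : Set (I × X) := {p | p.1 = 0}
  let C₁ : Set (I × X) := {p | p.1 = 1}
  let C₂ : Set (I × X) := {p | p.2 ∈ A}
  have hC₀ : IsClosed C₀ := isClosed_eq continuous_fst continuous_const
  have hC₁ : IsClosed C₁ := isClosed_eq continuous_fst continuous_const
  have hC₂ : IsClosed C₂ := hA.preimage continuous_snd
  have hcont : ContinuousOn G (C₀ ∪ C₁ ∪ C₂) := by
    refine (ContinuousOn.union_of_isClosed ?_ ?_ hC₀ hC₁).union_of_isClosed ?_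
      (hC₀.union hC₁) hC₂
    · exact (f.continuous.comp continuous_snd).continuousOn.congr fun p hp => by
        simp [G, show p.1 = 0 from hp]
    · exact (g.continuous.comp continuous_snd).continuousOn.congr fun p hp => by
        simp [G, show p.1 = 1 from hp]
    · rw [continuousOn_iff_continuous_domRestrict]
      have : C₂.domRestrict G = fun p => h (p.1.1, ⟨p.1.2, p.2⟩) :=
        funext fun p => hGA p.1.1 ⟨p.1.2, p.2⟩
      rw [this]
      exact h.continuous.comp ((continuous_fst.comp continuous_subtype_val).prodMk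
        ((continuous_snd.comp continuous_subtype_val).subtype_mk _))
  obtain ⟨F, hF⟩ := ContinuousMap.exists_restrict_eq ((hC₀.union hC₁).union hC₂)
    ⟨_, continuousOn_iff_continuous_domRestrict.1 hcont⟩
  have hFG : ∀ p ∈ C₀ ∪ C₁ ∪ C₂, F p = G p := fun p hp => DFunLike.congr_fun hF ⟨p, hp⟩
  refine ⟨{ toContinuousMap := F, map_zero_left := fun x => ?_, map_one_left := fun x => ?_ },
    fun t a => ?_⟩
  · exact (hFG (0, x) (Or.inl (Or.inl rfl))).trans (by simp [G])
  · exact (hFG (1, x) (Or.inl (Or.inr rfl))).trans (by simp [G])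
  · exact (hFG (t, (a : X)) (Or.inr a.2)).trans (hGA t a)

/-- Two closed embeddings with a prescribed overlap: the boundary of a disc as two hemispheres. -/
structure TwoFaces (X' : Type w) (X : Type u) [TopologicalSpace X'] [TopologicalSpace X] where
  s : C(X', X)
  t : C(X', X)
  rim : Set X'
  rim_closed : IsClosed rim
  s_inj : Function.Injective s
  t_inj : Function.Injective t
  inter_iff : ∀ x y, s x = t y ↔ x = y ∧ x ∈ rim

namespace TwoFaces

variable {X' : Type w} [TopologicalSpace X'] (T : TwoFaces X' X)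

/-- The union of the two faces. -/
def bdry : Set X := range T.s ∪ range T.t

theorem bdry_closed [CompactSpace X'] [T2Space X] : IsClosed T.bdry :=
  (isCompact_range T.s.continuous).isClosed.union (isCompact_range T.t.continuous).isClosed

theorem exists_glue {Z : Type v} [TopologicalSpace Z] [CompactSpace Z] [T2Space Z]
    [CompactSpace X'] [T2Space X] {W : Type*} [TopologicalSpace W]
    (a b : C(Z × X', W)) (h : ∀ z, ∀ x ∈ T.rim, a (z, x) = b (z, x)) :
    ∃ c : C(Z × T.bdry, W), ∀ z x,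
      c (z, ⟨T.s x, Or.inl ⟨x, rfl⟩⟩) = a (z, x) ∧
      c (z, ⟨T.t x, Or.inr ⟨x, rfl⟩⟩) = b (z, x) := by
  let q : C((Z × X') ⊕ (Z × X'), Z × T.bdry) :=
    ⟨Sum.elim (fun p => (p.1, ⟨T.s p.2, Or.inl ⟨p.2, rfl⟩⟩))
      (fun p => (p.1, ⟨T.t p.2, Or.inr ⟨p.2, rfl⟩⟩)),
      (continuous_fst.prodMk ((T.s.continuous.comp continuous_snd).subtype_mk _)).sumElim
        (continuous_fst.prodMk ((T.t.continuous.comp continuous_snd).subtype_mk _))⟩
  have hsurj : Function.Surjective q := by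
    rintro ⟨z, x, ⟨y, rfl⟩ | ⟨y, rfl⟩⟩
    · exact ⟨Sum.inl (z, y), rfl⟩
    · exact ⟨Sum.inr (z, y), rfl⟩
  have hq : IsQuotientMap q := IsQuotientMap.of_surjective_continuous hsurj q.continuous
  let ab : C((Z × X') ⊕ (Z × X'), W) := ⟨Sum.elim a b, a.continuous.sumElim b.continuous⟩
  have hfac : Function.FactorsThrough ab q := by
    rintro (⟨z, x⟩ | ⟨z, x⟩) (⟨z', y⟩ | ⟨z', y⟩) hxy <;>
      obtain ⟨rfl, hxy⟩ := Prod.ext_iff.1 hxy <;> have hval := congrArg Subtype.val hxy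
    · exact congrArg (fun u => a (z, u)) (T.s_inj hval)
    · obtain ⟨rfl, hr⟩ := (T.inter_iff x y).1 hval
      exact h z x hr
    · obtain ⟨rfl, hr⟩ := (T.inter_iff y x).1 hval.symm
      exact (h z y hr).symm
    · exact congrArg (fun u => b (z, u)) (T.t_inj hval)
  refine ⟨hq.lift ab hfac, fun z x => ⟨?_, ?_⟩⟩
  · exact DFunLike.congr_fun (hq.lift_comp ab hfac) (Sum.inl (z, x))
  · exact DFunLike.congr_fun (hq.lift_comp ab hfac) (Sum.inr (z, x))

end TwoFaces

/-- The hemisphere step: a map carrying the two faces into the two faces, which is an equivalence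
of pairs on one of them, is an equivalence of pairs. -/
theorem PairEquiv.of_faces {X Y X' Y' : Type u} [TopologicalSpace X] [TopologicalSpace Y]
    [TopologicalSpace X'] [TopologicalSpace Y']
    [CompactSpace X] [T2Space X] [CompactSpace X'] [T2Space X']
    [CompactSpace Y] [T2Space Y] [CompactSpace Y'] [T2Space Y']
    [TietzeExtension.{u, u} X] [TietzeExtension.{u, u} Y]
    [TietzeExtension.{u, u} X'] [TietzeExtension.{u, u} Y']
    (S : TwoFaces X' X) (T : TwoFaces Y' Y) (f : C(X, Y)) (f₁ f₂ : C(X', Y'))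
    (hs : ∀ x, f (S.s x) = T.s (f₁ x)) (ht : ∀ x, f (S.t x) = T.t (f₂ x))
    (h₁ : PairEquiv S.rim T.rim f₁) : PairEquiv S.bdry T.bdry f := by
  obtain ⟨hf₁, φ', hφ', ⟨G₁, hG₁⟩, ⟨H₁, hH₁⟩⟩ := h₁
  have heq : ∀ x ∈ S.rim, f₂ x = f₁ x := by
    intro x hx
    have h := (S.inter_iff x x).2 ⟨rfl, hx⟩
    have h' : T.s (f₁ x) = T.t (f₂ x) := by rw [← hs, ← ht, h]
    exact ((T.inter_iff _ _).1 h').1.symm
  -- the homotopies on the second faces
  obtain ⟨G₂, hG₂⟩ := exists_homotopy_extend S.rim_closed (φ'.comp f₂) (ContinuousMap.id X')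
    ⟨fun p => G₁ (p.1, (p.2 : X')), G₁.continuous.comp
      (continuous_fst.prodMk (continuous_subtype_val.comp continuous_snd))⟩
    (fun a => by simp [heq a a.2]) (fun a => by simp)
  obtain ⟨H₂, hH₂⟩ := exists_homotopy_extend T.rim_closed (f₂.comp φ') (ContinuousMap.id Y')
    ⟨fun p => H₁ (p.1, (p.2 : Y')), H₁.continuous.comp
      (continuous_fst.prodMk (continuous_subtype_val.comp continuous_snd))⟩
    (fun a => by simp [heq (φ' a) (hφ' a.2)]) (fun a => by simp)
  -- the inverse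
  obtain ⟨ψ, hψ⟩ := T.exists_glue (Z := PUnit.{u + 1})
    ⟨fun p => S.s (φ' p.2), S.s.continuous.comp (φ'.continuous.comp continuous_snd)⟩
    ⟨fun p => S.t (φ' p.2), S.t.continuous.comp (φ'.continuous.comp continuous_snd)⟩
    (fun _ y hy => (S.inter_iff _ _).2 ⟨rfl, hφ' hy⟩)
  obtain ⟨φ, hφ⟩ := ContinuousMap.exists_restrict_eq T.bdry_closed
    (ψ.comp ⟨fun y => (PUnit.unit, y), continuous_const.prodMk continuous_id⟩)
  have hφs : ∀ y, φ (T.s y) = S.s (φ' y) := fun y =>
    (DFunLike.congr_fun hφ ⟨T.s y, Or.inl ⟨y, rfl⟩⟩).trans (hψ PUnit.unit y).1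
  have hφt : ∀ y, φ (T.t y) = S.t (φ' y) := fun y =>
    (DFunLike.congr_fun hφ ⟨T.t y, Or.inr ⟨y, rfl⟩⟩).trans (hψ PUnit.unit y).2
  refine ⟨?_, φ, ?_, ?_, ?_⟩
  · rintro _ (⟨x, rfl⟩ | ⟨x, rfl⟩)
    · exact Or.inl ⟨f₁ x, (hs x).symm⟩
    · exact Or.inr ⟨f₂ x, (ht x).symm⟩
  · rintro _ (⟨y, rfl⟩ | ⟨y, rfl⟩)
    · exact Or.inl ⟨φ' y, (hφs y).symm⟩
    · exact Or.inr ⟨φ' y, (hφt y).symm⟩
  · have key : ∀ (t : I), ∀ x ∈ S.rim, S.s (G₁ (t, x)) = S.t (G₂ (t, x)) := by
      intro t x hx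
      rw [show G₂ (t, x) = G₁ (t, x) from hG₂ t ⟨x, hx⟩]
      exact (S.inter_iff _ _).2 ⟨rfl, hG₁ t x hx⟩
    obtain ⟨c, hc⟩ := S.exists_glue (Z := I)
      ⟨fun p => S.s (G₁ p), S.s.continuous.comp G₁.continuous⟩
      ⟨fun p => S.t (G₂ p), S.t.continuous.comp G₂.continuous⟩ key
    obtain ⟨F, hF⟩ := exists_homotopy_extend S.bdry_closed (φ.comp f) (ContinuousMap.id X) c
      (by
        rintro ⟨_, ⟨x, rfl⟩ | ⟨x, rfl⟩⟩
        · exact (hc 0 x).1.trans (by simp [hs, hφs])
        · exact (hc 0 x).2.trans (by simp [ht, hφt]))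
      (by
        rintro ⟨_, ⟨x, rfl⟩ | ⟨x, rfl⟩⟩
        · exact (hc 1 x).1.trans (by simp)
        · exact (hc 1 x).2.trans (by simp))
    refine ⟨F, fun t a ha => ?_⟩
    rw [show F (t, a) = c (t, ⟨a, ha⟩) from hF t ⟨a, ha⟩]
    rcases ha with ⟨x, rfl⟩ | ⟨x, rfl⟩
    · exact Or.inl ⟨G₁ (t, x), (hc t x).1.symm⟩
    · exact Or.inr ⟨G₂ (t, x), (hc t x).2.symm⟩
  · have key : ∀ (t : I), ∀ x ∈ T.rim, T.s (H₁ (t, x)) = T.t (H₂ (t, x)) := by
      intro t x hx
      rw [show H₂ (t, x) = H₁ (t, x) from hH₂ t ⟨x, hx⟩]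
      exact (T.inter_iff _ _).2 ⟨rfl, hH₁ t x hx⟩
    obtain ⟨c, hc⟩ := T.exists_glue (Z := I)
      ⟨fun p => T.s (H₁ p), T.s.continuous.comp H₁.continuous⟩
      ⟨fun p => T.t (H₂ p), T.t.continuous.comp H₂.continuous⟩ key
    obtain ⟨F, hF⟩ := exists_homotopy_extend T.bdry_closed (f.comp φ) (ContinuousMap.id Y) c
      (by
        rintro ⟨_, ⟨x, rfl⟩ | ⟨x, rfl⟩⟩
        · exact (hc 0 x).1.trans (by simp [hs, hφs])
        · exact (hc 0 x).2.trans (by simp [ht, hφt]))
      (by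
        rintro ⟨_, ⟨x, rfl⟩ | ⟨x, rfl⟩⟩
        · exact (hc 1 x).1.trans (by simp)
        · exact (hc 1 x).2.trans (by simp))
    refine ⟨F, fun t a ha => ?_⟩
    rw [show F (t, a) = c (t, ⟨a, ha⟩) from hF t ⟨a, ha⟩]
    rcases ha with ⟨x, rfl⟩ | ⟨x, rfl⟩
    · exact Or.inl ⟨H₁ (t, x), (hc t x).1.symm⟩
    · exact Or.inr ⟨H₂ (t, x), (hc t x).2.symm⟩

/-- The base case: a map between one point spaces with empty boundary. -/
theorem PairEquiv.of_subsingleton [Subsingleton X] [Subsingleton Y] [Nonempty X] (f : C(X, Y)) :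
    PairEquiv (∅ : Set X) (∅ : Set Y) f := by
  obtain ⟨x₀⟩ := ‹Nonempty X›
  refine ⟨mapsTo_empty _ _, ContinuousMap.const _ x₀, mapsTo_empty _ _, ?_, ?_⟩
  · rw [show (ContinuousMap.const Y x₀).comp f = ContinuousMap.id X from
      ContinuousMap.ext fun _ => Subsingleton.elim _ _]
    exact ⟨.refl _, fun _ _ h => h.elim⟩
  · rw [show f.comp (ContinuousMap.const Y x₀) = ContinuousMap.id Y from
      ContinuousMap.ext fun _ => Subsingleton.elim _ _]
    exact ⟨.refl _, fun _ _ h => h.elim⟩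

end P259.Complex
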