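import Mathlib
import Vale.Agent.P259.Complex.Line

/-!
P259, module E: the canonical homotopy between comparable monotone maps, natural in both sides.
-/

universe u v w

namespace P259.Complex

open Topology unitInterval

open scoped Classical

namespace Real

variable {P : Type u} {Q : Type v} [PartialOrder P] [PartialOrder Q]

/-- The weight lying above a vertex. -/
noncomputable def above (x : Real (Cx.chains P)) (q : P) : ℝ :=
  ∑ u ∈ x.w.support.filter fun u => q < u, x.w u

/-- The part of the weight of a vertex which has crossed to the upper map at time `t`. -/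
noncomputable def up (x : Real (Cx.chains P)) (t : I) (q : P) : ℝ :=
  max 0 (min (x.w q) ((t : ℝ) - above x q))

theorem up_nonneg (x : Real (Cx.chains P)) (t : I) (q : P) : 0 ≤ up x t q := le_max_left _ _

theorem up_le (x : Real (Cx.chains P)) (t : I) (q : P) : up x t q ≤ x.w q :=
  max_le (x.nonneg q) (min_le_left _ _)

theorem above_add_le_above (x : Real (Cx.chains P)) {a b : P} (hab : a < b)
    (hb : b ∈ x.w.support) : x.w b + above x b ≤ above x a := by
  have hnot : b ∉ x.w.support.filter fun u => b < u := fun h => lt_irrefl _ (Finset.mem_filter.1 h).2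
  have : x.w b + above x b = ∑ u ∈ insert b (x.w.support.filter fun u => b < u), x.w u := by
    rw [Finset.sum_insert hnot, above]
  rw [this]
  refine Finset.sum_le_sum_of_subset_of_nonneg ?_ fun u _ _ => x.nonneg u
  intro u hu
  rcases Finset.mem_insert.1 hu with h | h
  · subst h
    exact Finset.mem_filter.2 ⟨hb, hab⟩
  · exact Finset.mem_filter.2 ⟨(Finset.mem_filter.1 h).1, hab.trans (Finset.mem_filter.1 h).2⟩

/-- A vertex with crossed weight has every vertex above it completely crossed. -/
theorem up_eq_of_lt (x : Real (Cx.chains P)) (t : I) {a b : P} (hab : a < b)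
    (hb : b ∈ x.w.support) (ha : 0 < up x t a) : up x t b = x.w b := by
  have h1 : above x a < t := by
    by_contra h
    have : min (x.w a) ((t : ℝ) - above x a) ≤ 0 :=
      (min_le_right _ _).trans (by linarith)
    rw [up, max_eq_left this] at ha
    exact lt_irrefl _ ha
  have h2 := above_add_le_above x hab hb
  rw [up, min_eq_left (by linarith), max_eq_right (x.nonneg b)]

theorem above_le_one (x : Real (Cx.chains P)) {q : P} (hq : q ∈ x.w.support) :
    x.w q + above x q ≤ 1 := by
  have hnot : q ∉ x.w.support.filter fun u => q < u := fun h => lt_irrefl _ (Finset.mem_filter.1 h).2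
  have : x.w q + above x q = ∑ u ∈ insert q (x.w.support.filter fun u => q < u), x.w u := by
    rw [Finset.sum_insert hnot, above]
  rw [this, ← x.sum_eq_one (subset_refl x.w.support)]
  refine Finset.sum_le_sum_of_subset_of_nonneg ?_ fun u _ _ => x.nonneg u
  intro u hu
  rcases Finset.mem_insert.1 hu with h | h
  · exact h ▸ hq
  · exact (Finset.mem_filter.1 h).1

theorem up_one (x : Real (Cx.chains P)) (q : P) : up x 1 q = x.w q := by
  by_cases hq : q ∈ x.w.support
  · have := above_le_one x hq
    rw [up, Set.Icc.coe_one, min_eq_left (by linarith), max_eq_right (x.nonneg q)]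
  · rw [up, Finsupp.notMem_support_iff.1 hq, max_eq_left (min_le_left _ _)]

theorem up_zero (x : Real (Cx.chains P)) (q : P) : up x 0 q = 0 := by
  rw [up, max_eq_left]
  refine (min_le_right _ _).trans ?_
  have : 0 ≤ above x q := Finset.sum_nonneg fun u _ => x.nonneg u
  simp [this]

variable (f g : P →o Q) (hfg : f ≤ g)

/-- The weights of the prism point. -/
noncomputable def prismW (x : Real (Cx.chains P)) (t : I) : Q →₀ ℝ :=
  ∑ q ∈ x.w.support,
    (Finsupp.single (f q) (x.w q - up x t q) + Finsupp.single (g q) (up x t q))

theorem prismW_support (x : Real (Cx.chains P)) (t : I) :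
    (prismW f g x t).support ⊆
      ((x.w.support.filter fun q => up x t q < x.w q).image f) ∪
        ((x.w.support.filter fun q => 0 < up x t q).image g) := by
  intro y hy
  obtain ⟨q, hq, hy⟩ : ∃ q ∈ x.w.support,
      y ∈ (Finsupp.single (f q) (x.w q - up x t q) + Finsupp.single (g q) (up x t q)).support := by
    simpa using Finsupp.support_finsetSum hy
  rcases Finset.mem_union.1 (Finsupp.support_add hy) with h | h
  · have hne : x.w q - up x t q ≠ 0 := fun h0 => by simp [h0] at h
    have hyq : y = f q := Finset.mem_singleton.1 (Finsupp.support_single_subset h)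
    refine Finset.mem_union_left _ (Finset.mem_image.2 ⟨q, Finset.mem_filter.2 ⟨hq, ?_⟩, hyq.symm⟩)
    exact lt_of_le_of_ne (up_le x t q) fun h0 => hne (by rw [h0, sub_self])
  · have hne : up x t q ≠ 0 := fun h0 => by simp [h0] at h
    have hyq : y = g q := Finset.mem_singleton.1 (Finsupp.support_single_subset h)
    exact Finset.mem_union_right _
      (Finset.mem_image.2 ⟨q, Finset.mem_filter.2 ⟨hq, (up_nonneg x t q).lt_of_ne hne.symm⟩,
        hyq.symm⟩)

include hfg in
theorem prismW_mem (x : Real (Cx.chains P)) (t : I) :
    (prismW f g x t).support ∈ (Cx.chains Q).simp := by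
  refine (Cx.chains Q).down ?_ (prismW_support f g x t)
  have cmp : ∀ a ∈ x.w.support, ∀ b ∈ x.w.support, a ≤ b ∨ b ≤ a := by
    intro a ha b hb
    by_cases h : a = b
    · exact Or.inl h.le
    · exact x.mem ha hb h
  have mixed : ∀ a ∈ x.w.support, ∀ b ∈ x.w.support, up x t a < x.w a → 0 < up x t b →
      f a ≤ g b := by
    intro a ha b hb hla hub
    rcases cmp a ha b hb with h | h
    · exact (f.monotone h).trans (hfg b)
    · rcases h.eq_or_lt with rfl | hlt
      · exact hfg b
      · exact absurd (up_eq_of_lt x t hlt ha hub) hla.ne
  rw [Cx.mem_chains]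
  intro y hy z hz _
  simp only [Finset.coe_union, Finset.coe_image, Set.mem_union, Set.mem_image, Finset.mem_coe,
    Finset.mem_filter] at hy hz
  rcases hy with ⟨a, ⟨ha, hla⟩, rfl⟩ | ⟨a, ⟨ha, hua⟩, rfl⟩ <;>
    rcases hz with ⟨b, ⟨hb, hlb⟩, rfl⟩ | ⟨b, ⟨hb, hub⟩, rfl⟩
  · exact (cmp a ha b hb).imp (fun h => f.monotone h) (fun h => f.monotone h)
  · exact Or.inl (mixed a ha b hb hla hub)
  · exact Or.inr (mixed b hb a ha hlb hua)
  · exact (cmp a ha b hb).imp (fun h => g.monotone h) (fun h => g.monotone h)

theorem prismW_total (x : Real (Cx.chains P)) (t : I) :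
    (prismW f g x t).sum (fun _ c => c) = 1 := by
  rw [prismW, ← Finsupp.sum_finsetSum_index (fun _ => rfl) (fun _ _ _ => rfl),
    ← x.sum_eq_one (subset_refl x.w.support)]
  refine Finset.sum_congr rfl fun q _ => ?_
  rw [Finsupp.sum_add_index' (fun _ => rfl) (fun _ _ _ => rfl), Finsupp.sum_single_index rfl,
    Finsupp.sum_single_index rfl, sub_add_cancel]

/-- The prism point. -/
noncomputable def prismPt (x : Real (Cx.chains P)) (t : I) : Real (Cx.chains Q) where
  w := prismW f g x t
  nonneg y := by
    simp only [prismW, Finsupp.finsetSum_apply, Finsupp.add_apply, Finsupp.single_apply]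
    refine Finset.sum_nonneg fun q _ => add_nonneg ?_ ?_ <;> split
    · exact sub_nonneg.2 (up_le x t q)
    · exact le_rfl
    · exact up_nonneg x t q
    · exact le_rfl
  total := prismW_total f g x t
  mem := prismW_mem f g hfg x t

theorem prismPt_support (x : Real (Cx.chains P)) (t : I) :
    (prismPt f g hfg x t).w.support ⊆ x.w.support.image f ∪ x.w.support.image g :=
  (prismW_support f g x t).trans (Finset.union_subset_union
    (Finset.image_subset_image (Finset.filter_subset _ _))
    (Finset.image_subset_image (Finset.filter_subset _ _)))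

theorem prismPt_zero (x : Real (Cx.chains P)) : prismPt f g hfg x 0 = mapO f x := by
  refine Real.ext ?_
  show prismW f g x 0 = x.w.mapDomain f
  simp [prismW, up_zero, Finsupp.mapDomain, Finsupp.sum]

theorem prismPt_one (x : Real (Cx.chains P)) : prismPt f g hfg x 1 = mapO g x := by
  refine Real.ext ?_
  show prismW f g x 1 = x.w.mapDomain g
  simp [prismW, up_one, Finsupp.mapDomain, Finsupp.sum]

theorem prismPt_of_eq (x : Real (Cx.chains P)) (t : I)
    (h : ∀ q ∈ x.w.support, f q = g q) : prismPt f g hfg x t = mapO f x := by
  refine Real.ext ?_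
  show prismW f g x t = x.w.mapDomain f
  rw [prismW, Finsupp.mapDomain, Finsupp.sum]
  refine Finset.sum_congr rfl fun q hq => ?_
  rw [← h q hq, ← Finsupp.single_add, sub_add_cancel]

variable [Finite P]

theorem continuous_prismPt :
    Continuous fun p : I × Real (Cx.chains P) => prismPt f g hfg p.2 p.1 := by
  have := Fintype.ofFinite P
  have habove : ∀ q, Continuous fun x : Real (Cx.chains P) => above x q := by
    intro q
    have h : (fun x : Real (Cx.chains P) => above x q)
        = fun x => ∑ u ∈ Finset.univ.filter (fun u => q < u), x.w u := by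
      funext x
      refine Finset.sum_subset (Finset.filter_subset_filter _ (Finset.subset_univ _)) ?_
      intro u hu hnot
      simp only [Finset.mem_filter, Finset.mem_univ, true_and] at hu hnot
      by_contra h0
      exact hnot ⟨Finsupp.mem_support_iff.2 h0, hu⟩
    rw [h]
    exact continuous_finsetSum _ fun u _ => continuous_coord u
  have hup : ∀ q, Continuous fun p : I × Real (Cx.chains P) => up p.2 p.1 q := fun q =>
    continuous_const.max (((continuous_coord q).comp continuous_snd).min
      ((continuous_subtype_val.comp continuous_fst).sub ((habove q).comp continuous_snd)))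
  refine continuous_of_coord (Finset.univ.image f ∪ Finset.univ.image g)
    (fun p => (prismPt_support f g hfg p.2 p.1).trans (Finset.union_subset_union
      (Finset.image_subset_image (Finset.subset_univ _))
      (Finset.image_subset_image (Finset.subset_univ _)))) (fun y _ => ?_)
  have h : (fun p : I × Real (Cx.chains P) => (prismPt f g hfg p.2 p.1).w y)
      = fun p => ∑ q, ((if f q = y then p.2.w q - up p.2 p.1 q else 0)
          + if g q = y then up p.2 p.1 q else 0) := by
    funext p
    show (prismW f g p.2 p.1) y = _
    simp only [prismW, Finsupp.finsetSum_apply, Finsupp.add_apply, Finsupp.single_apply]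
    refine Finset.sum_subset (Finset.subset_univ _) fun q _ hq => ?_
    have h0 := Finsupp.notMem_support_iff.1 hq
    have h1 : up p.2 p.1 q = 0 := le_antisymm (h0 ▸ up_le p.2 p.1 q) (up_nonneg _ _ _)
    simp [h0, h1]
  rw [h]
  refine continuous_finsetSum _ fun q _ => Continuous.add ?_ ?_ <;> split
  · exact ((continuous_coord q).comp continuous_snd).sub (hup q)
  · exact continuous_const
  · exact hup q
  · exact continuous_const

/-- The canonical homotopy between comparable monotone maps. -/
noncomputable def prismHomotopy : ContinuousMap.Homotopy (mapO f) (mapO g) where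
  toFun p := prismPt f g hfg p.2 p.1
  continuous_toFun := continuous_prismPt f g hfg
  map_zero_left x := prismPt_zero f g hfg x
  map_one_left x := prismPt_one f g hfg x

theorem prismHomotopy_apply (t : I) (x : Real (Cx.chains P)) :
    prismHomotopy f g hfg (t, x) = prismPt f g hfg x t := rfl

omit [Finite P]

/-- Naturality in the target. -/
theorem mapO_prismPt {R : Type w} [PartialOrder R] (r : Q →o R) (x : Real (Cx.chains P)) (t : I) :
    mapO r (prismPt f g hfg x t)
      = prismPt (r.comp f) (r.comp g) (fun q => r.monotone (hfg q)) x t := by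
  refine Real.ext ?_
  show (prismW f g x t).mapDomain r = prismW (r.comp f) (r.comp g) x t
  simp only [prismW, Finsupp.mapDomain_finsetSum, Finsupp.mapDomain_add, Finsupp.mapDomain_single,
    OrderHom.comp_coe, Function.comp_apply]

/-- Naturality along an order embedding of the source. -/
theorem prismPt_mapO {P' : Type w} [PartialOrder P'] (e : P' ↪o P) (x : Real (Cx.chains P'))
    (t : I) :
    prismPt f g hfg (mapO e.toOrderHom x) t
      = prismPt (f.comp e.toOrderHom) (g.comp e.toOrderHom) (fun q => hfg (e q)) x t := by
  have hval : ∀ q, (mapO e.toOrderHom x).w (e q) = x.w q := fun q =>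
    Finsupp.mapDomain_apply e.injective x.w q
  have hsupp : (mapO e.toOrderHom x).w.support = x.w.support.image e :=
    Finsupp.mapDomain_support_of_injective e.injective x.w
  have habove : ∀ q, above (mapO e.toOrderHom x) (e q) = above x q := by
    intro q
    rw [above, above, hsupp, Finset.filter_image, Finset.sum_image (e.injective.injOn)]
    refine Finset.sum_congr (Finset.filter_congr fun u _ => e.lt_iff_lt) fun u _ => hval u
  refine Real.ext ?_
  show prismW f g (mapO e.toOrderHom x) t = prismW (f.comp e.toOrderHom) (g.comp e.toOrderHom) x t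
  rw [prismW, prismW, hsupp, Finset.sum_image e.injective.injOn]
  refine Finset.sum_congr rfl fun q _ => ?_
  simp [up, hval, habove]

end Real

end P259.Complex
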