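import Mathlib
import Vale.Agent.P259.Complex.Pair

/-!
P259, module E: the standard simplices are extensors, and their boundary is covered by the face
opposite the first vertex and an embedded copy of it filling the rest.
-/

universe u

namespace P259.Complex

open Set

namespace Simp

variable {n : ℕ}

/-- The standard simplex with `n + 1` vertices. -/
abbrev Δ (n : ℕ) : Type := stdSimplex ℝ (Fin (n + 1))

/-- The boundary of a standard simplex. -/
def bdry (n : ℕ) : Set (Δ n) := {x | ∃ v, x.1 v = 0}

theorem isClosed_bdry (n : ℕ) : IsClosed (bdry n) := by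
  have h : bdry n = ⋃ v, {x : Δ n | x.1 v = 0} := by
    ext x
    simp [bdry]
  rw [h]
  exact isClosed_iUnion_of_finite fun v =>
    isClosed_eq ((continuous_apply v).comp continuous_subtype_val) continuous_const

theorem bdry_zero : bdry 0 = ∅ := by
  ext x
  simp only [bdry, mem_ofPred_eq, mem_empty_iff_false, iff_false, not_exists]
  intro v hv
  have := x.2.2
  rw [show (∑ i, x.1 i) = x.1 v from @Fintype.sum_subsingleton _ _ _ _ Fin.subsingleton_one _ v, hv] at this
  exact zero_ne_one this

instance : Subsingleton (Δ 0) :=
  ⟨fun x y => Subtype.ext (funext fun v => by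
    have hx := x.2.2
    have hy := y.2.2
    rw [show (∑ i, x.1 i) = x.1 v from
      @Fintype.sum_subsingleton _ _ _ _ Fin.subsingleton_one _ v] at hx
    rw [show (∑ i, y.1 i) = y.1 v from
      @Fintype.sum_subsingleton _ _ _ _ Fin.subsingleton_one _ v] at hy
    rw [hx, hy])⟩

/-- The retraction of the coordinate space onto the simplex. -/
noncomputable def retract (n : ℕ) : C(Fin (n + 1) → ℝ, Δ n) where
  toFun x := ⟨fun v => (max (x v) 0 + max (1 - ∑ u, max (x u) 0) 0 / (n + 1))
      / max 1 (∑ u, max (x u) 0), fun v => by positivity, by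
    rw [← Finset.sum_div, Finset.sum_add_distrib, Finset.sum_const, Finset.card_univ,
      Fintype.card_fin, nsmul_eq_mul]
    push_cast
    rw [mul_div_cancel₀ _ (by positivity)]
    rw [div_eq_one_iff_eq (by positivity)]
    rcases le_total (∑ u, max (x u) 0) 1 with h | h
    · rw [max_eq_left (by linarith), max_eq_left h]
      ring
    · rw [max_eq_right (by linarith), max_eq_right h]
      ring⟩
  continuous_toFun := by
    refine Continuous.subtype_mk (continuous_pi fun v => ?_) _
    refine Continuous.div ?_ ?_ fun x => by positivity
    · fun_prop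
    · fun_prop

theorem retract_apply (x : Δ n) : retract n x.1 = x := by
  refine Subtype.ext (funext fun v => ?_)
  have h : ∀ u, max (x.1 u) 0 = x.1 u := fun u => max_eq_left (x.2.1 u)
  simp only [retract, ContinuousMap.coe_mk, h, x.2.2]
  simp

instance instTietzeExtension (n : ℕ) : TietzeExtension.{u, 0} (Δ n) :=
  TietzeExtension.of_retract ⟨Subtype.val, continuous_subtype_val⟩ (retract n)
    (ContinuousMap.ext retract_apply)

/-- The face opposite the first vertex. -/
noncomputable def face (n : ℕ) : C(Δ n, Δ (n + 1)) where
  toFun x := ⟨Fin.cons 0 x.1, fun v => by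
    refine Fin.cases ?_ (fun i => ?_) v
    · simp
    · simpa using x.2.1 i, by
    rw [Fin.sum_univ_succ]
    simpa using x.2.2⟩
  continuous_toFun := by
    refine Continuous.subtype_mk (continuous_pi fun v => ?_) _
    refine Fin.cases ?_ (fun i => ?_) v
    · simpa using continuous_const
    · simp only [Fin.cons_succ]
      exact (continuous_apply i).comp continuous_subtype_val

theorem face_zero (x : Δ n) : (face n x).1 0 = 0 := by simp [face]

theorem face_succ (x : Δ n) (i : Fin (n + 1)) : (face n x).1 i.succ = x.1 i := by simp [face]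

/-- The smallest coordinate. -/
noncomputable def low (x : Δ n) : ℝ := Finset.univ.inf' Finset.univ_nonempty x.1

theorem low_le (x : Δ n) (i : Fin (n + 1)) : low x ≤ x.1 i :=
  Finset.inf'_le _ (Finset.mem_univ i)

theorem low_nonneg (x : Δ n) : 0 ≤ low x :=
  Finset.le_inf' _ _ fun i _ => x.2.1 i

theorem low_eq_zero_iff (x : Δ n) : low x = 0 ↔ x ∈ bdry n := by
  constructor
  · intro h
    obtain ⟨i, -, hi⟩ := Finset.exists_mem_eq_inf' (H := Finset.univ_nonempty) (s := Finset.univ)
      (f := x.1)
    exact ⟨i, hi.symm.trans h⟩
  · rintro ⟨i, hi⟩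
    exact le_antisymm (hi ▸ low_le x i) (low_nonneg x)

theorem continuous_low : Continuous (low (n := n)) :=
  Continuous.finset_inf'_apply _ fun i _ => (continuous_apply i).comp continuous_subtype_val

/-- The copy of the face filling the remaining faces. -/
noncomputable def horn (n : ℕ) : C(Δ n, Δ (n + 1)) where
  toFun x := ⟨Fin.cons ((n + 1 : ℝ) * low x) (fun i => x.1 i - low x), fun v => by
    refine Fin.cases ?_ (fun i => ?_) v
    · simpa using mul_nonneg (by positivity : (0 : ℝ) ≤ n + 1) (low_nonneg x)
    · simpa using low_le x i, by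
    rw [Fin.sum_univ_succ]
    simp [Finset.sum_sub_distrib, x.2.2]⟩
  continuous_toFun := by
    refine Continuous.subtype_mk (continuous_pi fun v => ?_) _
    refine Fin.cases ?_ (fun i => ?_) v
    · simp only [Fin.cons_zero]
      exact continuous_const.mul continuous_low
    · simp only [Fin.cons_succ]
      exact ((continuous_apply i).comp continuous_subtype_val).sub continuous_low

theorem horn_zero (x : Δ n) : (horn n x).1 0 = (n + 1 : ℝ) * low x := by simp [horn]

theorem horn_succ (x : Δ n) (i : Fin (n + 1)) : (horn n x).1 i.succ = x.1 i - low x := by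
  simp [horn]

/-- The two hemispheres of the boundary of a simplex. -/
noncomputable def twoFaces (n : ℕ) : TwoFaces (Δ n) (Δ (n + 1)) where
  s := face n
  t := horn n
  rim := bdry n
  rim_closed := isClosed_bdry n
  s_inj x y h := Subtype.ext (funext fun i => by
    rw [← face_succ x i, ← face_succ y i, h])
  t_inj x y h := by
    have h0 := horn_zero x
    rw [h, horn_zero y] at h0
    have hl : low x = low y := by
      have : (n + 1 : ℝ) ≠ 0 := by positivity
      exact (mul_left_cancel₀ this h0).symm
    refine Subtype.ext (funext fun i => ?_)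
    have hi := horn_succ x i
    rw [h, horn_succ y i, hl] at hi
    linarith
  inter_iff x y := by
    constructor
    · intro h
      have h0 := horn_zero y
      rw [← h, face_zero] at h0
      have hl : low y = 0 := by
        have : (n + 1 : ℝ) ≠ 0 := by positivity
        simpa [this] using h0.symm
      have hxy : x = y := Subtype.ext (funext fun i => by
        rw [← face_succ x i, h, horn_succ, hl, sub_zero])
      exact ⟨hxy, hxy ▸ (low_eq_zero_iff y).1 hl⟩
    · rintro ⟨rfl, hx⟩
      have hl := (low_eq_zero_iff x).2 hx
      refine Subtype.ext (funext fun v => ?_)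
      refine Fin.cases ?_ (fun i => ?_) v
      · rw [face_zero, horn_zero, hl, mul_zero]
      · rw [face_succ, horn_succ, hl, sub_zero]

theorem twoFaces_bdry (n : ℕ) : (twoFaces n).bdry = bdry (n + 1) := by
  ext z
  constructor
  · rintro (⟨x, rfl⟩ | ⟨x, rfl⟩)
    · exact ⟨0, face_zero x⟩
    · obtain ⟨i, -, hi⟩ := Finset.exists_mem_eq_inf' (H := Finset.univ_nonempty)
        (s := Finset.univ) (f := x.1)
      exact ⟨i.succ, (horn_succ x i).trans (sub_eq_zero.2 hi.symm)⟩
  · intro hz
    by_cases h0 : z.1 0 = 0
    · left
      have hsum := z.2.2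
      rw [Fin.sum_univ_succ, h0, zero_add] at hsum
      refine ⟨⟨fun i => z.1 i.succ, fun i => z.2.1 _, hsum⟩, Subtype.ext (funext fun v => ?_)⟩
      refine Fin.cases ?_ (fun i => ?_) v
      · exact (face_zero _).trans h0.symm
      · exact face_succ _ i
    · right
      have hsum := z.2.2
      rw [Fin.sum_univ_succ] at hsum
      let y : Δ n := ⟨fun i => z.1 i.succ + z.1 0 / (n + 1),
        fun i => add_nonneg (z.2.1 _) (div_nonneg (z.2.1 0) (by positivity)), by
          rw [Finset.sum_add_distrib, Finset.sum_const, Finset.card_univ, Fintype.card_fin,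
            nsmul_eq_mul]
          push_cast
          rw [mul_div_cancel₀ _ (by positivity)]
          linarith⟩
      have hlow : low y = z.1 0 / (n + 1) := by
        refine le_antisymm ?_ (Finset.le_inf' _ _ fun i _ =>
          le_add_of_nonneg_left (z.2.1 _))
        obtain ⟨v, hv⟩ := hz
        revert hv
        refine Fin.cases ?_ (fun i => ?_) v
        · exact fun h => absurd h h0
        · intro h
          exact (low_le y i).trans_eq (by simp [y, h])
      refine ⟨y, Subtype.ext (funext fun v => ?_)⟩
      refine Fin.cases ?_ (fun i => ?_) v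
      · rw [twoFaces, horn_zero, hlow, mul_div_cancel₀ _ (by positivity)]
      · rw [twoFaces, horn_succ, hlow]
        simp [y]

end Simp

end P259.Complex
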